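import Vale.Agent.P141.H205.SPath
import Vale.Agent.P141.H258.Wt

/-!
# The static spectral cut in the letters of the consumers

The cap of the low part in the form `H258.Cap` and its dual; contraction of row combinations and of
row energies; the splitting of `own4` and `pwr` for scalar paths.
-/

namespace Vale.Agent.P141.H205

open Finset Matrix Vale.Agent.P141.PL Vale.Agent.P141.PL.H103 Vale.Agent.P141.H103
open Vale.Agent.P075 (Ix val)
open Vale.Agent.P141.H736 (Path Agree sqb sqQ)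
open Vale.Agent.P141.H958 (Aff s4 pwr mem_Aff)
open Vale.Agent.P141.H48 (own4)

noncomputable section

open scoped Classical

variable {κ : Type*} [Fintype κ]

/-! ### The cap -/

/-- the cap in the letters of `H258` -/
theorem capS_cap {c : ℝ} {a k : ℕ} {b : ℤ → ℤ → κ → ℝ} {n m : ℤ} (h : CapS c a k b n m) :
    H258.Cap c b a k n m := by
  intro u
  have e1 : ∀ x, qK (fun _ => u) b 0 x k m ⬝ᵥ qK (fun _ => u) b 0 x k m =
      ((2 : ℝ) ^ k * 2 ^ k)⁻¹ * ∑ l, (∑ y ∈ iv k m, u y * b x y l) ^ 2 := by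
    intro x
    rw [dotProduct, mul_sum]
    refine sum_congr rfl fun l _ => ?_
    rw [H258.qK_apply, mul_inv]
    ring
  simp only [e1]
  rw [← mul_sum]
  have h1 := h u
  have hp : (0 : ℝ) < 2 ^ k * 2 ^ k := by positivity
  rw [inv_mul_le_iff₀ hp]
  refine h1.trans (le_of_eq ?_)
  have : (2 : ℝ) ^ k ≠ 0 := by positivity
  field_simp

theorem cap_capS {c : ℝ} {a k : ℕ} {b : ℤ → ℤ → κ → ℝ} {n m : ℤ} (h : H258.Cap c b a k n m) :
    CapS c a k b n m := by
  intro u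
  have h1 := h u
  have e1 : ∀ x, qK (fun _ => u) b 0 x k m ⬝ᵥ qK (fun _ => u) b 0 x k m =
      ((2 : ℝ) ^ k * 2 ^ k)⁻¹ * ∑ l, (∑ y ∈ iv k m, u y * b x y l) ^ 2 := by
    intro x
    rw [dotProduct, mul_sum]
    refine sum_congr rfl fun l _ => ?_
    rw [H258.qK_apply, mul_inv]
    ring
  simp only [e1] at h1
  rw [← mul_sum] at h1
  have hp : (0 : ℝ) < 2 ^ k * 2 ^ k := by positivity
  rw [inv_mul_le_iff₀ hp] at h1
  refine h1.trans (le_of_eq ?_)
  have : (2 : ℝ) ^ k ≠ 0 := by positivity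
  field_simp

theorem capS_mono {c c' : ℝ} (hc : c ≤ c') {a k : ℕ} {b : ℤ → ℤ → κ → ℝ} {n m : ℤ}
    (h : CapS c a k b n m) : CapS c' a k b n m := by
  intro w
  refine (h w).trans ?_
  refine mul_le_mul_of_nonneg_right ?_ (sum_nonneg fun _ _ => sq_nonneg _)
  exact mul_le_mul_of_nonneg_right hc (by positivity)

/-- **the dual form of the cap**: combinations of the rows -/
theorem capS_dual {c : ℝ} (hc : 0 ≤ c) {a k : ℕ} {b : ℤ → ℤ → κ → ℝ} {n m : ℤ}
    (h : CapS c a k b n m) (w : ℤ → κ → ℝ) :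
    ∑ y ∈ iv k m, (∑ x ∈ iv a n, w x ⬝ᵥ b x y) ^ 2 ≤
      c * (2 ^ a * 2 ^ k) * ∑ x ∈ iv a n, w x ⬝ᵥ w x := by
  set v : ℤ → ℝ := fun y => ∑ x ∈ iv a n, w x ⬝ᵥ b x y with hv
  set S : ℝ := ∑ y ∈ iv k m, v y ^ 2 with hS
  set W : ℝ := ∑ x ∈ iv a n, w x ⬝ᵥ w x with hW
  have h1 := h v
  rw [← hS] at h1
  have hS0 : 0 ≤ S := sum_nonneg fun _ _ => sq_nonneg _
  have hW0 : 0 ≤ W := sum_nonneg fun _ _ => by
    rw [dotProduct]
    exact sum_nonneg fun _ _ => mul_self_nonneg _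
  have e1 : S = ∑ p ∈ iv a n ×ˢ (univ : Finset κ), w p.1 p.2 *
      ∑ y ∈ iv k m, v y * b p.1 y p.2 := by
    rw [sum_product]
    have e2 : S = ∑ y ∈ iv k m, v y * ∑ x ∈ iv a n, ∑ l, w x l * b x y l := by
      rw [hS]
      refine sum_congr rfl fun y _ => ?_
      rw [sq]
      rfl
    rw [e2]
    simp only [mul_sum]
    rw [sum_comm]
    refine sum_congr rfl fun x _ => ?_
    rw [sum_comm]
    refine sum_congr rfl fun l _ => ?_
    refine sum_congr rfl fun y _ => ?_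
    ring
  have h2 : S ^ 2 ≤ W * (c * (2 ^ a * 2 ^ k) * S) := by
    rw [e1]
    refine (sum_mul_sq_le_sq_mul_sq _ _ _).trans ?_
    rw [sum_product, sum_product, ← e1]
    have e3 : ∑ x ∈ iv a n, ∑ l, w x l ^ 2 = W := by
      rw [hW]
      refine sum_congr rfl fun x _ => ?_
      rw [dotProduct]
      exact sum_congr rfl fun l _ => by ring
    rw [e3]
    exact mul_le_mul_of_nonneg_left h1 hW0
  have hC0 : 0 ≤ c * (2 ^ a * 2 ^ k) := by positivity
  by_cases hS1 : S = 0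
  · rw [hS1]
    exact mul_nonneg hC0 hW0
  · have hS2 : 0 < S := lt_of_le_of_ne hS0 (Ne.symm hS1)
    have h3 : S * S ≤ c * (2 ^ a * 2 ^ k) * W * S := by
      calc S * S = S ^ 2 := by ring
        _ ≤ _ := h2
        _ = _ := by ring
    exact le_of_mul_le_mul_right h3 hS2

/-! ### Contractions -/

section contr

variable {k : ℕ} {P : Matrix (Ix k) (Ix k) ℝ}

theorem proj_vec_le (ht : Pᵀ = P) (hi : P * P = P) (g : Ix k → ℝ) :
    ∑ j0, (∑ j, g j * P j j0) ^ 2 ≤ ∑ j, g j ^ 2 := by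
  have e1 : ∀ j0, ∑ j, g j * P j j0 = (P *ᵥ g) j0 := by
    intro j0
    rw [mulVec, dotProduct]
    refine sum_congr rfl fun j _ => ?_
    have : P j j0 = P j0 j := by
      conv_lhs => rw [← ht]
      rfl
    rw [this, mul_comm]
  have e2 : (P *ᵥ g) ⬝ᵥ (P *ᵥ g) = g ⬝ᵥ (P *ᵥ g) := by
    rw [dotProduct_mulVec, ← mulVec_transpose, ht, mulVec_mulVec, hi, dotProduct_comm]
  have h1 : 0 ≤ (g - P *ᵥ g) ⬝ᵥ (g - P *ᵥ g) := by
    rw [dotProduct]
    exact sum_nonneg fun _ _ => mul_self_nonneg _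
  rw [sub_dotProduct, dotProduct_sub, dotProduct_sub, e2, dotProduct_comm (P *ᵥ g) g] at h1
  have e3 : ∑ j0, (∑ j, g j * P j j0) ^ 2 = (P *ᵥ g) ⬝ᵥ (P *ᵥ g) := by
    rw [dotProduct]
    exact sum_congr rfl fun j _ => by rw [e1, sq]
  have e4 : ∑ j, g j ^ 2 = g ⬝ᵥ g := by
    rw [dotProduct]
    exact sum_congr rfl fun j _ => sq _
  rw [e3, e4, e2]
  linarith

/-- combinations of rows of a cut block -/
theorem cut_rows (ht : Pᵀ = P) (hi : P * P = P) (m : ℤ) (X : Finset ℤ) (w : ℤ → κ → ℝ)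
    (f : ℤ → ℤ → κ → ℝ) :
    ∑ y ∈ iv k m, (∑ x ∈ X, ∑ l, w x l * cutv k P m (f x) y l) ^ 2 ≤
      ∑ y ∈ iv k m, (∑ x ∈ X, ∑ l, w x l * f x y l) ^ 2 := by
  rw [H588.sum_iv, H588.sum_iv]
  refine le_trans (le_of_eq ?_) (proj_vec_le ht hi fun j =>
    ∑ x ∈ X, ∑ l, w x l * f x (2 ^ k * m + val k j) l)
  refine sum_congr rfl fun j0 _ => ?_
  congr 1
  simp only [cutv_val, mul_sum, sum_mul]
  symm
  rw [sum_comm]
  refine sum_congr rfl fun x _ => ?_
  rw [sum_comm]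
  refine sum_congr rfl fun l _ => ?_
  refine sum_congr rfl fun j _ => ?_
  ring

/-- energy of one row of a cut block -/
theorem cut_row (ht : Pᵀ = P) (hi : P * P = P) (m : ℤ) (f : ℤ → κ → ℝ) :
    ∑ y ∈ iv k m, cutv k P m f y ⬝ᵥ cutv k P m f y ≤ ∑ y ∈ iv k m, f y ⬝ᵥ f y := by
  simp only [dotProduct]
  rw [sum_comm]
  rw [sum_comm (s := iv k m)]
  refine sum_le_sum fun l _ => ?_
  rw [H588.sum_iv, H588.sum_iv]
  refine le_trans (le_of_eq ?_) ((proj_vec_le ht hi fun j =>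
    f (2 ^ k * m + val k j) l).trans (le_of_eq ?_))
  · refine sum_congr rfl fun j0 _ => ?_
    rw [cutv_val, sq]
  · exact sum_congr rfl fun j0 _ => by ring

end contr

variable {Q : ℕ → ℤ → ℤ → Prop} {c : ℝ} {F : ℕ → ℤ → ℤ → κ → ℝ}

/-- combinations of rows on an affected square, low part -/
theorem low_rows {k : ℕ} {n m : ℤ} (hQ : Q k n m) {X : Finset ℤ} (hX : X ⊆ iv k n)
    (w : ℤ → κ → ℝ) :
    ∑ y ∈ iv k m, (∑ x ∈ X, ∑ l, w x l * lowF Q c F (k + 1) x y l) ^ 2 ≤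
      ∑ y ∈ iv k m, (∑ x ∈ X, ∑ l, w x l * F (k + 1) x y l) ^ 2 := by
  refine le_trans (le_of_eq ?_) (cut_rows (lowP_transpose (GQ_psd k (F (k + 1)) n m).1 c)
    (lowP_idem _ c) m X w (F (k + 1)))
  refine sum_congr rfl fun y hy => ?_
  congr 1
  refine sum_congr rfl fun x hx => sum_congr rfl fun l _ => ?_
  rw [lowF_on hQ (hX hx) hy]
  rfl

/-- **line energies of the low part in the cut variable** -/
theorem low_line {e : ℝ} (hQ0 : ∀ n m, Q 0 n m)
    (h : ∀ k n m, Q k n m → ∀ x ∈ iv k n,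
      ∑ y ∈ iv k m, F (k + 1) x y ⬝ᵥ F (k + 1) x y ≤ e * 2 ^ k) :
    ∀ (k : ℕ) (n m : ℤ), ∀ x ∈ iv k n,
      ∑ y ∈ iv k m, lowF Q c F (k + 1) x y ⬝ᵥ lowF Q c F (k + 1) x y ≤ e * 2 ^ k := by
  have on : ∀ k n m, Q k n m → ∀ x ∈ iv k n,
      ∑ y ∈ iv k m, lowF Q c F (k + 1) x y ⬝ᵥ lowF Q c F (k + 1) x y ≤ e * 2 ^ k := by
    intro k n m hQ x hx
    refine le_trans (le_of_eq ?_) ((cut_row (lowP_transpose (GQ_psd k (F (k + 1)) n m).1 c)
      (lowP_idem _ c) m (F (k + 1) x)).trans (h k n m hQ x hx))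
    refine sum_congr rfl fun y hy => ?_
    rw [lowF_on hQ hx hy]
    rfl
  intro k
  induction k with
  | zero => exact fun n m x hx => on 0 n m (hQ0 n m) x hx
  | succ k ih =>
    intro n m x hx
    by_cases hQ : Q (k + 1) n m
    · exact on (k + 1) n m hQ x hx
    · have e1 : ∀ y ∈ iv (k + 1) m, lowF Q c F (k + 1 + 1) x y ⬝ᵥ lowF Q c F (k + 1 + 1) x y =
          lowF Q c F (k + 1) x y ⬝ᵥ lowF Q c F (k + 1) x y := fun y hy => by
        rw [lowF_off hQ hx hy]
      rw [sum_congr rfl e1, sum_iv_two' k m fun y =>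
        lowF Q c F (k + 1) x y ⬝ᵥ lowF Q c F (k + 1) x y]
      have hx1 : x ∈ iv k (ix k x) := mem_iv.2 rfl
      have h1 := ih (ix k x) (2 * m) x hx1
      have h2 := ih (ix k x) (2 * m + 1) x hx1
      calc _ ≤ e * 2 ^ k + e * 2 ^ k := add_le_add h1 h2
        _ = e * 2 ^ (k + 1) := by rw [pow_succ]; ring

/-- own energy of the high part on an affected square: the squares of the large eigenvalues -/
theorem own_high {k : ℕ} {n m : ℤ} (hQ : Q k n m) :
    (GQ k (fun x y l => F (k + 1) x y l - lowF Q c F (k + 1) x y l) n m *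
        GQ k (fun x y l => F (k + 1) x y l - lowF Q c F (k + 1) x y l) n m).trace =
      ∑ i, if c < (GQ_psd k (F (k + 1)) n m).1.eigenvalues i then
        (GQ_psd k (F (k + 1)) n m).1.eigenvalues i ^ 2 else 0 := by
  have h : GQ k (fun x y l => F (k + 1) x y l - lowF Q c F (k + 1) x y l) n m =
      (1 - prL k (F (k + 1)) c n m) * GQ k (F (k + 1)) n m * (1 - prL k (F (k + 1)) c n m) :=
    QW_high hQ _
  rw [h]
  unfold prL
  rw [trace_high]
  refine sum_congr rfl fun i _ => ?_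
  by_cases hi : c < (GQ_psd k (F (k + 1)) n m).1.eigenvalues i
  · rw [if_pos hi, if_neg (not_le.2 hi)]
  · rw [if_neg hi, if_pos (not_lt.1 hi)]

/-- the Gram matrix does not depend on the instance -/
theorem GQ_eq [inst : DecidableEq κ] (k : ℕ) (b : ℤ → ℤ → κ → ℝ) (n m : ℤ) :
    GQ k b n m = QW k k b (fun _ => (1 : Matrix κ κ ℝ)) n m := by
  unfold GQ
  have h : inst = fun a b => Classical.propDecidable (a = b) := Subsingleton.elim _ _
  subst h
  rfl

/-! ### Scalar paths -/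

section scalar

variable (Q c)
variable (A : ℕ → ℤ → ℤ → ℝ)

/-- low part of a scalar path -/
def low1 : ℕ → ℤ → ℤ → ℝ := fun k x y => lowF Q c (fun k => un (A k)) k x y ()

/-- high part of a scalar path -/
def high1 : ℕ → ℤ → ℤ → ℝ := fun k x y => A k x y - low1 Q c A k x y

variable {Q c A}

theorem un_low1 (k : ℕ) : un (low1 Q c A k) = lowF Q c (fun k => un (A k)) k := rfl

theorem low1_add_high1 (k : ℕ) (x y : ℤ) : low1 Q c A k x y + high1 Q c A k x y = A k x y := by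
  unfold high1
  ring

theorem low1_zero : low1 Q c A 0 = 0 := rfl

theorem high1_zero (h : A 0 = 0) : high1 Q c A 0 = 0 := by
  funext x y
  show A 0 x y - low1 Q c A 0 x y = 0
  rw [h, low1_zero]
  show (0 : ℝ) - 0 = 0
  ring

theorem low1_path (N : ℕ) (R S : ℤ) : Path N R S Q (low1 Q c A) :=
  lowF_path N R S ()

theorem high1_path {N : ℕ} {R S : ℤ} (hA : Path N R S Q A) : Path N R S Q (high1 Q c A) :=
  highF_path (F := fun k => un (A k)) (l := ()) hA

theorem Xg_un (k : ℕ) (B : ℤ → ℤ → ℝ) (n m : ℤ) : H588.Xg k k B n m = GQ k (un B) n m := by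
  rw [Xg_eq, inv_one, GQ_eq]

theorem s4_un (k : ℕ) (B : ℤ → ℤ → ℝ) (n m : ℤ) :
    s4 k k B n m = (GQ k (un B) n m * GQ k (un B) n m).trace := by
  unfold s4
  rw [Xg_un]

theorem tr_un (k : ℕ) (B : ℤ → ℤ → ℝ) (n m : ℤ) :
    sqb k n m B = 4 ^ k * (GQ k (un B) n m).trace := by
  rw [H736.sqb_eq, Xg_un]

theorem s4_split {k : ℕ} {n m : ℤ} (hQ : Q k n m) :
    s4 k k (low1 Q c A (k + 1)) n m + s4 k k (high1 Q c A (k + 1)) n m =
      s4 k k (A (k + 1)) n m := by
  rw [s4_un, s4_un, s4_un]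
  exact own_split (F := fun k => un (A k)) hQ

theorem sqb_split {k : ℕ} {n m : ℤ} (hQ : Q k n m) :
    sqb k n m (low1 Q c A (k + 1)) + sqb k n m (high1 Q c A (k + 1)) =
      sqb k n m (A (k + 1)) := by
  rw [tr_un, tr_un, tr_un, ← mul_add]
  congr 1
  exact en_split (F := fun k => un (A k)) hQ

/-- **own energies of a scalar path** -/
theorem own4_split (N : ℕ) (R S : ℤ) :
    own4 N R S Q (low1 Q c A) + own4 N R S Q (high1 Q c A) = own4 N R S Q A := by
  unfold own4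
  rw [← sum_add_distrib]
  refine sum_congr rfl fun i hi => ?_
  rw [← mul_add, s4_split (mem_Aff.1 hi).2.2.2]

/-- **square energies of a scalar path** -/
theorem pwr_split (N : ℕ) (R S : ℤ) :
    pwr N R S Q (low1 Q c A) + pwr N R S Q (high1 Q c A) = pwr N R S Q A := by
  unfold pwr sqQ
  rw [← sum_add_distrib]
  refine sum_congr rfl fun k _ => ?_
  rw [← sum_add_distrib]
  refine sum_congr rfl fun m _ => ?_
  rw [← sum_add_distrib]
  refine sum_congr rfl fun n _ => ?_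
  split_ifs with hQ
  · exact sqb_split hQ
  · ring

theorem own4_nonneg (N : ℕ) (R S : ℤ) (B : ℕ → ℤ → ℤ → ℝ) : 0 ≤ own4 N R S Q B :=
  sum_nonneg fun _ _ => mul_nonneg (by positivity) (H958.s4_nonneg ..)

theorem own4_low_le (N : ℕ) (R S : ℤ) : own4 N R S Q (low1 Q c A) ≤ own4 N R S Q A := by
  have h := own4_split (Q := Q) (c := c) (A := A) N R S
  have h2 := own4_nonneg (Q := Q) N R S (high1 Q c A)
  linarith

theorem pwr_low_le (N : ℕ) (R S : ℤ) : pwr N R S Q (low1 Q c A) ≤ pwr N R S Q A := by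
  have h := pwr_split (Q := Q) (c := c) (A := A) N R S
  have h2 := H958.pwr_nonneg N R S Q (high1 Q c A)
  linarith

theorem pwr_high_le (N : ℕ) (R S : ℤ) : pwr N R S Q (high1 Q c A) ≤ pwr N R S Q A := by
  have h := pwr_split (Q := Q) (c := c) (A := A) N R S
  have h2 := H958.pwr_nonneg N R S Q (low1 Q c A)
  linarith

/-- the own energy of the high part on an affected square is the sum of the squares of the large
eigenvalues -/
theorem s4_high {k : ℕ} {n m : ℤ} (hQ : Q k n m) :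
    s4 k k (high1 Q c A (k + 1)) n m =
      ∑ i, if c < (GQ_psd k (un (A (k + 1))) n m).1.eigenvalues i then
        (GQ_psd k (un (A (k + 1))) n m).1.eigenvalues i ^ 2 else 0 := by
  rw [s4_un]
  exact own_high (F := fun k => un (A k)) hQ

/-- **the cap of the low part of a scalar path, consumer form** -/
theorem low1_cap (hc : 0 ≤ c) (hQ0 : ∀ n m, Q 0 n m) (k r : ℕ) (n m : ℤ) :
    H258.Cap c (un (low1 Q c A (k + 1))) (k + r) k n m :=
  capS_cap (capS_rect hc hQ0 k r n m)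

end scalar

/-- **the cap of the low part of a labelled path, consumer form** -/
theorem lowF_cap (hc : 0 ≤ c) (hQ0 : ∀ n m, Q 0 n m) (k r : ℕ) (n m : ℤ) :
    H258.Cap c (lowF Q c F (k + 1)) (k + r) k n m :=
  capS_cap (capS_rect hc hQ0 k r n m)

end

end Vale.Agent.P141.H205
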