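import Vale.Agent.P141.H401.CutSplit
import Vale.Agent.P141.H971.EngL
import Vale.Agent.P141.H338.Lab4
import Vale.Agent.P141.H205.SUse

/-!
# P141, line (A): the natural price of families which are not split

`FamK` : data of a labelled family at the points `x0`, Gram matrix in the second variable.
`NS_nf3_le` : sum over tiles, points and alive nodes of the absolute values of the node form.
-/

namespace Vale.Agent.P141.H205

open Finset Matrix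
open Vale.Agent.P075 (Ix val)
open Vale.Agent.P141.PL (Pt iv hs ix mem_iv tri cx)
open Vale.Agent.P141.PL.H804 (bx3)
open Vale.Agent.P141.H736 (Path sqb sqQ)
open Vale.Agent.P141.H958 (Aff s4 pwr mem_Aff sum_Aff PackQ lbs fl)
open Vale.Agent.P141.H48 (own4)
open Vale.Agent.P141.H338 (s4R own4R cu sum_cu_cu)
open Vale.Agent.P141.H971 (Fam0 FamR)
open Vale.Agent.P141.H498 (prf)
open Vale.Agent.P141.H677
open Vale.Agent.P141.H401 (NS)

noncomputable section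

open scoped Classical

variable {κ : Type*} [Fintype κ]

/-- labelled own energy, Gram matrix in the second variable -/
def ownK (N : ℕ) (R S : ℤ) (Q : ℕ → ℤ → ℤ → Prop) (F : ℕ → ℤ → ℤ → κ → ℝ) : ℝ :=
  ∑ i ∈ Aff N R S Q, (4 : ℝ) ^ i.1 *
    (GQ i.1 (F (i.1 + 1)) i.2.1 i.2.2 * GQ i.1 (F (i.1 + 1)) i.2.1 i.2.2).trace

/-- labelled square energy -/
def pwrK (N : ℕ) (R S : ℤ) (Q : ℕ → ℤ → ℤ → Prop) (F : ℕ → ℤ → ℤ → κ → ℝ) : ℝ :=
  ∑ i ∈ Aff N R S Q, ∑ x ∈ iv i.1 i.2.1, ∑ y ∈ iv i.1 i.2.2, F (i.1 + 1) x y ⬝ᵥ F (i.1 + 1) x y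

/-- data of a labelled family, Gram matrix in the second variable -/
structure FamK (N : ℕ) (R S : ℤ) (X : Finset ℤ) (Q : ℤ → ℕ → ℤ → ℤ → Prop)
    (F : ℤ → ℕ → ℤ → ℤ → κ → ℝ) (cP G D : ℝ) : Prop where
  path : ∀ i ∈ X, ∀ l, Path N R S (Q i) (fun k x y => F i k x y l)
  zero : ∀ i ∈ X, F i 0 = 0
  pack : ∀ i ∈ X, PackQ N R S (Q i) cP
  own : ∑ i ∈ X, ownK N R S (Q i) (F i) ≤ G
  pow : ∑ i ∈ X, pwrK N R S (Q i) (F i) ≤ D

/-! ### exchange of the variables -/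

theorem Aff_fl (N : ℕ) (R S : ℤ) (Q : ℕ → ℤ → ℤ → Prop) (f : ℕ × ℤ × ℤ → ℝ) :
    ∑ i ∈ Aff N S R (fl Q), f i = ∑ i ∈ Aff N R S Q, f (i.1, i.2.2, i.2.1) := by
  rw [sum_Aff, sum_Aff]
  refine sum_congr rfl fun k _ => ?_
  rw [sum_comm]
  rfl

theorem packQ_fl {N : ℕ} {R S : ℤ} {Q : ℕ → ℤ → ℤ → Prop} {cP : ℝ} (h : PackQ N R S Q cP) :
    PackQ N S R (fl Q) cP := by
  intro K hK n' m'
  refine le_trans (le_of_eq ?_) (h K hK m' n')
  rw [sum_filter, Aff_fl, sum_filter]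
  refine sum_congr rfl fun i _ => ?_
  simp only
  congr 1
  rw [and_comm (a := ix (K - i.1) i.2.2 = n')]

/-! ### encoding of the labels -/

section enc

variable {L : ℕ} {e : κ → ℤ}

/-- the labelled function with exchanged variables -/
def ef (e : κ → ℤ) (F : ℤ → ℤ → κ → ℝ) : ℤ → ℤ → ℤ → ℝ := fun l y x => cu e (F x y) l

theorem tr_GQ_sq (k : ℕ) (b : ℤ → ℤ → κ → ℝ) (n m : ℤ) :
    (GQ k b n m * GQ k b n m).trace = (((2 : ℝ) ^ k * 2 ^ k) ^ 2)⁻¹ *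
      ∑ y ∈ iv k m, ∑ y' ∈ iv k m, (∑ x ∈ iv k n, b x y ⬝ᵥ b x y') ^ 2 := by
  have hG : ∀ j j' : Ix k, GQ k b n m j j' = ((2 : ℝ) ^ k * 2 ^ k)⁻¹ *
      ∑ x ∈ iv k n, b x (2 ^ k * m + val k j) ⬝ᵥ b x (2 ^ k * m + val k j') := by
    intro j j'
    unfold GQ H103.QW
    congr 1
    refine sum_congr rfl fun x _ => ?_
    rw [one_mulVec]
  rw [Matrix.trace, PL.H588.sum_iv, mul_sum]
  refine sum_congr rfl fun j _ => ?_
  rw [Matrix.diag_apply, Matrix.mul_apply, PL.H588.sum_iv, mul_sum]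
  refine sum_congr rfl fun j' _ => ?_
  rw [hG, hG]
  have e1 : ∑ x ∈ iv k n, b x (2 ^ k * m + val k j') ⬝ᵥ b x (2 ^ k * m + val k j) =
      ∑ x ∈ iv k n, b x (2 ^ k * m + val k j) ⬝ᵥ b x (2 ^ k * m + val k j') :=
    sum_congr rfl fun x _ => dotProduct_comm _ _
  rw [e1, sq ((2 : ℝ) ^ k * 2 ^ k), mul_inv, sq]
  ring

theorem s4R_ef (he : Function.Injective e) (hm : ∀ i, e i ∈ lbs L) (k : ℕ)
    (F : ℤ → ℤ → κ → ℝ) (n m : ℤ) :
    s4R L k k (ef e F) m n = (GQ k F n m * GQ k F n m).trace := by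
  rw [tr_GQ_sq]
  unfold s4R
  congr 1
  refine sum_congr rfl fun y _ => sum_congr rfl fun y' _ => ?_
  congr 1
  refine sum_congr rfl fun x _ => ?_
  unfold ef
  exact sum_cu_cu he hm _ _

theorem own4R_ef (he : Function.Injective e) (hm : ∀ i, e i ∈ lbs L) (N : ℕ) (R S : ℤ)
    (Q : ℕ → ℤ → ℤ → Prop) (F : ℕ → ℤ → ℤ → κ → ℝ) :
    own4R L N S R (fl Q) (fun k => ef e (F k)) = ownK N R S Q F := by
  unfold own4R ownK
  rw [Aff_fl N R S Q fun i => (4 : ℝ) ^ i.1 * s4R L i.1 i.1 (ef e (F (i.1 + 1))) i.2.1 i.2.2]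
  refine sum_congr rfl fun i _ => ?_
  simp only
  rw [s4R_ef he hm]

theorem pwr_ef (he : Function.Injective e) (hm : ∀ i, e i ∈ lbs L) (N : ℕ) (R S : ℤ)
    (Q : ℕ → ℤ → ℤ → Prop) (F : ℕ → ℤ → ℤ → κ → ℝ) :
    ∑ l ∈ lbs L, pwr N S R (fl Q) (fun k => ef e (F k) l) = pwrK N R S Q F := by
  have h1 : ∀ l, pwr N S R (fl Q) (fun k => ef e (F k) l) = ∑ i ∈ Aff N R S Q,
      ∑ x ∈ iv i.1 i.2.1, ∑ y ∈ iv i.1 i.2.2, cu e (F (i.1 + 1) x y) l ^ 2 := by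
    intro l
    rw [sum_Aff]
    unfold pwr sqQ
    refine sum_congr rfl fun k _ => ?_
    rw [sum_comm]
    refine sum_congr rfl fun m _ => sum_congr rfl fun n _ => ?_
    unfold fl
    split_ifs
    · rfl
    · rfl
  simp only [h1]
  unfold pwrK
  rw [sum_comm]
  refine sum_congr rfl fun i _ => ?_
  rw [sum_comm]
  refine sum_congr rfl fun x _ => ?_
  rw [sum_comm]
  refine sum_congr rfl fun y _ => ?_
  rw [dotProduct, ← sum_cu_cu he hm (F (i.1 + 1) x y) (F (i.1 + 1) x y)]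
  exact sum_congr rfl fun l _ => sq _

theorem path_ef {N : ℕ} {R S : ℤ} {Q : ℕ → ℤ → ℤ → Prop} {F : ℕ → ℤ → ℤ → κ → ℝ}
    (h : ∀ l, Path N R S Q (fun k x y => F k x y l)) (l : ℤ) :
    Path N S R (fl Q) (fun k => ef e (F k) l) := by
  intro k hk n hn m hm hq y hy x hx
  have e1 : F (k + 1) x y = F k x y := funext fun l' => h l' k hk m hm n hn hq x hx y hy
  show cu e (F (k + 1) x y) l = cu e (F k x y) l
  rw [e1]

/-- **The data in the letters of the engine.** -/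
theorem FamK.toR (he : Function.Injective e) (hm : ∀ i, e i ∈ lbs L) {N : ℕ} {R S : ℤ}
    {X : Finset ℤ} {Q : ℤ → ℕ → ℤ → ℤ → Prop} {F : ℤ → ℕ → ℤ → ℤ → κ → ℝ} {cP G D : ℝ}
    (h : FamK N R S X Q F cP G D) :
    FamR L N S R X (fun i => fl (Q i)) (fun i k => ef e (F i k)) cP G D where
  path := fun i hi l _ => path_ef (h.path i hi) l
  zero := fun i hi => by
    have h0 := h.zero i hi
    funext l y x
    show cu e (F i 0 x y) l = 0
    rw [h0]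
    unfold cu
    simp
  pack := fun i hi => packQ_fl (h.pack i hi)
  own := by
    simp only [own4R_ef he hm]
    exact h.own
  pow := by
    simp only [pwr_ef he hm]
    exact h.pow

/-- the node form in the letters of the engine -/
theorem nf3_tri (he : Function.Injective e) (hm : ∀ i, e i ∈ lbs L) (A : ℤ → ℤ → ℝ)
    (b C : ℤ → ℤ → κ → ℝ) (k : ℕ) (m : Pt) :
    nf3 A b C k m = ((2 : ℝ) ^ k)⁻¹ * ∑ l ∈ lbs L, tri k m A (ef e b l)
      (fun z x => cu e (C z x) l) := by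
  unfold nf3 tri
  congr 1
  symm
  rw [sum_comm]
  refine sum_congr rfl fun z _ => ?_
  have e3 : ∀ G : ℤ → ℤ → ℤ → ℝ, ∑ l ∈ lbs L, ∑ y ∈ iv k m.2.1, ∑ x ∈ iv k m.2.2, G l y x =
      ∑ x ∈ iv k m.2.2, ∑ y ∈ iv k m.2.1, ∑ l ∈ lbs L, G l y x := by
    intro G
    rw [sum_comm]
    have e4 : ∀ y, ∑ l ∈ lbs L, ∑ x ∈ iv k m.2.2, G l y x =
        ∑ x ∈ iv k m.2.2, ∑ l ∈ lbs L, G l y x := fun y => sum_comm
    rw [sum_congr rfl fun y _ => e4 y]
    exact sum_comm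
  rw [e3]
  refine sum_congr rfl fun x _ => sum_congr rfl fun y _ => ?_
  rw [dotProduct, ← sum_cu_cu he hm (b x y) (C z x), mul_sum, mul_sum]
  refine sum_congr rfl fun l _ => ?_
  unfold ef
  ring

end enc

/-- labels in `lbs L` -/
theorem exists_emb {L : ℕ} (h : Fintype.card κ ≤ 2 ^ L) :
    ∃ e : κ → ℤ, Function.Injective e ∧ ∀ i, e i ∈ lbs L := by
  have h1 : Fintype.card κ ≤ Fintype.card (lbs L) := by
    rw [Fintype.card_coe]
    unfold H958.lbs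
    rw [Int.card_Ico]
    have : (2 ^ L - 0 : ℤ).toNat = 2 ^ L := by
      rw [sub_zero]
      exact_mod_cast Int.toNat_natCast (2 ^ L)
    rw [this]
    exact h
  obtain ⟨f⟩ := Function.Embedding.nonempty_of_card_le h1
  exact ⟨fun i => f i, fun i j hij => f.injective (Subtype.ext hij), fun i => (f i).2⟩

/-! ### the price -/

variable {o : ℤ} {Al : ℕ → Pt → Prop} {K : ℕ} {x : Pt}

theorem card_rt (M : Pt) : (rt M).card = 3 := by
  unfold rt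
  rw [Int.card_Icc]
  omega

/-- **The natural price of a family which is not split.** -/
theorem NS_nf3_le (ho : o = 1 ∨ o = -1) {A : ℤ → ℕ → ℤ → ℤ → ℝ}
    {b C : ℤ → ℕ → ℤ → ℤ → κ → ℝ} {QA QB QC : ℤ → ℕ → ℤ → ℤ → Prop}
    {cP GA GB GC DA DB DC : ℝ} (hcP : 1 ≤ cP) (hGA : 0 < GA) (hGB : 0 < GB) (hGC : 0 < GC)
    (hDA : 0 < DA) (hDB : 0 < DB) (hDC : 0 < DC)
    (hA : ∀ t ∈ rt (cx K x), Fam0 K (cx K x).2.2 (cx K x).2.1 (iv K t) QA A cP GA DA)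
    (hB : ∀ t ∈ rt (cx K x), FamK K (cx K x).1 (cx K x).2.1 (iv K t) QB b cP GB DB)
    (hC : ∀ t ∈ rt (cx K x), FamK K (cx K x).1 (cx K x).2.2 (iv K t) QC
      (fun x0 k x z => C x0 k z x) cP GC DC) :
    NS o Al K x (fun x0 k m => |nf3 (A x0 k) (b x0 k) (C x0 k) k m|) ≤
      3 * (2 * (2160 * 4400) * cP * prf GA GB GC DA DB DC) := by
  obtain ⟨L, hL⟩ : ∃ L : ℕ, Fintype.card κ ≤ 2 ^ L := ⟨Fintype.card κ, Nat.lt_two_pow_self.le⟩
  obtain ⟨e, he, hm⟩ := exists_emb hL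
  have key : ∀ t ∈ rt (cx K x), ∑ x0 ∈ iv K t, ∑ k ∈ Icc 1 K, ∑ m ∈ sN Al o K (cx K x) x0 k,
      |nf3 (A x0 k) (b x0 k) (C x0 k) k m| ≤ 2 * (2160 * 4400) * cP * prf GA GB GC DA DB DC := by
    intro t ht
    have h := H971.engL3 (N := K) (R := rv (cx K x)) (X := iv K t) (c := fun x0 => H677.cP o x0)
      (s := fun x0 k => sN Al o K (cx K x) x0 k) (fun x0 _ => cP_pl ho x0)
      (fun x0 _ k _ => sN_sub ..) hcP hGA hGB hGC hDA hDB hDC (hA t ht) ((hB t ht).toR he hm)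
      ((hC t ht).toR he hm)
    refine le_trans (le_of_eq ?_) h
    refine sum_congr rfl fun x0 _ => sum_congr rfl fun k _ => ?_
    rw [mul_sum]
    refine sum_congr rfl fun m _ => ?_
    rw [nf3_tri he hm, abs_mul, abs_of_nonneg (show (0 : ℝ) ≤ ((2 : ℝ) ^ k)⁻¹ by positivity)]
    rfl
  have h := sum_le_sum key
  rw [sum_const, card_rt, nsmul_eq_mul] at h
  exact h.trans (le_of_eq (by norm_num))

end

end Vale.Agent.P141.H205
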