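import Vale.Agent.P141.H205.Cut
import Vale.Agent.P141.H48.ENdefs
import Vale.Agent.P141.PL.H318.Comp

/-!
# P141, line W, squad EN: EN5, from the line to the boxes

`cmpSt_holds`: a static function of one variable, killed outside the alive cells, composed with a
linear form with nonzero coefficients, is an `L²` slot on the boxes; if it is uniform on the alive
cells, it is a uniform slot.
-/

namespace Vale.Agent.P141.H205

open Finset Vale.Agent.P141.PL
open Vale.Agent.P141.H315 (dot)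
open Vale.Agent.P141.PL.H315 (cube3 mem_cube3 atm Tri)
open Vale.Agent.P141.PL.H318 (ixs a1 mem_gs csz line_le)
open Vale.Agent.P141.PL.H95 (gr)
open Vale.Agent.P141.H922 (wP wP_nonneg)
open Vale.Agent.P141.H419
open Vale.Agent.P141.H48

noncomputable section

open scoped Classical

theorem ixs_up {c0 : ℕ} {σ : ℤ} {k : ℕ} {s s' : ℤ} (h : ixs c0 σ k s' = ixs c0 σ k s) :
    ixs c0 σ (k + 1) s' = ixs c0 σ (k + 1) s := by
  unfold ixs at h ⊢
  rw [show k + 1 + c0 = (k + c0) + 1 by ring, pow_succ, ← Int.ediv_ediv_of_nonneg (by positivity),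
    ← Int.ediv_ediv_of_nonneg (by positivity), h]

theorem Alv.mono_le {c0 : ℕ} {σ : ℤ} {al : ℕ → ℤ → Prop} (ha : Alv c0 σ al) {k l : ℕ}
    (h : k ≤ l) {s : ℤ} (hk : al k s) : al l s := by
  induction l, h using Nat.le_induction with
  | base => exact hk
  | succ l _ ih => exact ha.mono l s ih

/-- the affected cubes -/
def QA (al : ℕ → ℤ → Prop) (c : Pt) (k : ℕ) (m : Pt) : Prop :=
  ∃ y ∈ cb k m, al (k + 1) (el c y) ∧ ¬ al k (el c y)

theorem csz_le {c : Pt} (h1 : |c.1| ≤ 3) (h2 : |c.2.1| ≤ 3) (h3 : |c.2.2| ≤ 3) {c0 : ℕ}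
    (hc0 : 7 ≤ c0) : csz c ≤ 2 ^ c0 := by
  have h : (2 : ℤ) ^ 7 ≤ 2 ^ c0 := pow_le_pow_right₀ (by norm_num) hc0
  unfold csz
  norm_num at h
  linarith

theorem three_le_pow {c0 : ℕ} (hc0 : 7 ≤ c0) : (3 : ℤ) ≤ 2 ^ c0 := by
  have h : (2 : ℤ) ^ 7 ≤ 2 ^ c0 := pow_le_pow_right₀ (by norm_num) hc0
  norm_num at h
  linarith

/-- agreement off the affected cubes -/
theorem agree_kl {c0 : ℕ} {σ : ℤ} {al : ℕ → ℤ → Prop} (ha : Alv c0 σ al) (c : Pt) (f : ℤ → ℝ)
    {k : ℕ} {m : Pt} (hQ : ¬ QA al c k m) {y : Pt} (hy : y ∈ cb k m) :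
    kl al f (k + 1) (el c y) = kl al f k (el c y) := by
  unfold kl
  by_cases h : al k (el c y)
  · rw [if_pos h, if_pos (ha.mono k _ h)]
  · have h2 : ¬ al (k + 1) (el c y) := fun h' => hQ ⟨y, hy, h', h⟩
    rw [if_neg h, if_neg h2]

theorem iv_diff {k : ℕ} {m x y : ℤ} (hx : x ∈ iv k m) (hy : y ∈ iv k m) : |x - y| ≤ 2 ^ k := by
  unfold iv at hx hy
  rw [mem_Ico] at hx hy
  rw [abs_le]
  constructor <;> linarith

/-- packing of the affected squares -/
theorem pack_QA {c0 : ℕ} (hc0 : 7 ≤ c0) {σ : ℤ} {al : ℕ → ℤ → Prop} (ha : Alv c0 σ al) {c : Pt}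
    (h3 : c.2.2 ≠ 0) (a1' : |c.1| ≤ 3) (a2' : |c.2.1| ≤ 3) (a3' : |c.2.2| ≤ 3) (x0 : ℤ) (K : ℕ)
    (r s : ℤ) :
    ∑ k ∈ range (K + 1), ∑ r' ∈ iv (K - k) r, ∑ s' ∈ iv (K - k) s,
      (if QA al c k (ix k x0, r', s') then (4 : ℝ) ^ k else 0) ≤ 52 * 4 ^ K := by
  have h := pack hc0 (σ := σ) (D := fun k s => al (k + 1) s ∧ ¬ al k s)
    (fun k s s' hs hD => ⟨(ha.const (k + 1) s s' (ixs_up hs)).mpr hD.1,
      fun h' => hD.2 ((ha.const k s s' hs).mp h')⟩)
    (fun k l s hk hl => by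
      rcases lt_trichotomy k l with h | h | h
      · exact absurd (Alv.mono_le ha (by omega : k + 1 ≤ l) hk.1) hl.2
      · exact h
      · exact absurd (Alv.mono_le ha (by omega : l + 1 ≤ k) hl.1) hk.2)
    (b := c.1 * x0) (α := c.2.1) (β := c.2.2) h3 a3'
    (af := fun k r' s' => QA al c k (ix k x0, r', s'))
    (fun k n m hq => by
      obtain ⟨y0, hy0, hD⟩ := hq
      refine ⟨el c y0, hD, fun x hx y hy => ?_⟩
      unfold cb at hy0
      rw [mem_product, mem_product] at hy0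
      have d1 := iv_diff (self_mem_iv k x0) hy0.1
      have d2 := iv_diff hx hy0.2.1
      have d3 := iv_diff hy hy0.2.2
      have e : c.1 * x0 + c.2.1 * x + c.2.2 * y - el c y0 = c.1 * (x0 - y0.1) +
          c.2.1 * (x - y0.2.1) + c.2.2 * (y - y0.2.2) := by unfold el; ring
      rw [e]
      refine (abs_add_three _ _ _).trans ?_
      rw [abs_mul, abs_mul, abs_mul]
      have m1 := mul_le_mul a1' d1 (abs_nonneg _) (by norm_num)
      have m2 := mul_le_mul a2' d2 (abs_nonneg _) (by norm_num)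
      have m3 := mul_le_mul a3' d3 (abs_nonneg _) (by norm_num)
      have : (0 : ℤ) ≤ 2 ^ k := by positivity
      linarith)
    K K r s
  rw [min_self] at h
  refine h.trans ?_
  have h4 : (2 : ℝ) ^ K * 2 ^ K = 4 ^ K := by rw [← mul_pow]; norm_num
  rw [h4]
  have : (0 : ℝ) ≤ 4 ^ K := by positivity
  linarith

theorem iv_sub_up (k : ℕ) (m : ℤ) : iv k m ⊆ iv (k + 1) (m / 2) := by
  intro x hx
  rw [mem_iv] at hx ⊢
  unfold ix at hx ⊢
  rw [pow_succ, ← Int.ediv_ediv_of_nonneg (by positivity), hx]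

/-- the energy of the killed function on a cell of its scale -/
theorem cell_kl {c0 : ℕ} {σ : ℤ} {al : ℕ → ℤ → Prop} (ha : Alv c0 σ al) {n : ℕ} {e : ℝ}
    (he : 0 ≤ e) {f : ℤ → ℝ} (hE : ESl c0 σ al n e f) {k : ℕ} (h1 : 1 ≤ k) (hk : k ≤ n) (x : ℤ) :
    ∑ s ∈ (gr c0 σ).cube k x, kl al f k s ^ 2 ≤ e * 2 ^ (k + c0) := by
  by_cases hx : al k x
  · refine le_trans (le_of_eq ?_) (hE k h1 hk x hx)
    unfold dot
    refine sum_congr rfl fun s hs => ?_
    have h2 : al k s := (ha.const k x s (mem_gs.mp hs)).mpr hx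
    unfold kl
    rw [if_pos h2, sq]
  · rw [sum_eq_zero]
    · positivity
    · intro s hs
      have h2 : ¬ al k s := fun h => hx ((ha.const k x s (mem_gs.mp hs)).mp h)
      unfold kl
      rw [if_neg h2]
      norm_num

/-- line energies -/
theorem line_kl {c0 : ℕ} (hc0 : 7 ≤ c0) {σ : ℤ} {al : ℕ → ℤ → Prop} (ha : Alv c0 σ al) {n : ℕ}
    {e : ℝ} (he : 0 ≤ e) {f : ℤ → ℝ} (hE : ESl c0 σ al n e f) {k : ℕ} (hk : k < n) {c1 : ℤ}
    (hc : c1 ≠ 0) (hc3 : |c1| ≤ 3) (m b : ℤ) :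
    ∑ z ∈ iv k m, kl al f (k + 1) (c1 * z + b) ^ 2 ≤ 2 ^ (c0 + 2) * e * 2 ^ k := by
  have h := line_le (c0 := c0) (σ := σ) (l := k + 1) (h := fun s => kl al f (k + 1) s ^ 2)
    (fun s => sq_nonneg _) (B := e * 2 ^ (k + 1 + c0))
    (fun x => cell_kl ha he hE (Nat.le_add_left 1 k) (Nat.succ_le_of_lt hk) x) hc
    (hc3.trans (three_le_pow hc0)) (m / 2) b
  refine (sum_le_sum_of_subset_of_nonneg (iv_sub_up k m) fun _ _ _ => sq_nonneg _).trans
    (h.trans (le_of_eq ?_))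
  rw [pow_add, pow_add, pow_add]
  ring

/-- the box form -/
theorem bsl_kl {c0 : ℕ} (hc0 : 7 ≤ c0) {σ : ℤ} {al : ℕ → ℤ → Prop} (ha : Alv c0 σ al) {n : ℕ}
    {c : Pt} (h1 : c.1 ≠ 0) (h2 : c.2.1 ≠ 0) (h3 : c.2.2 ≠ 0) (a1' : |c.1| ≤ 3)
    (a2' : |c.2.1| ≤ 3) (a3' : |c.2.2| ≤ 3) {e : ℝ} (he : 0 ≤ e) {f : ℤ → ℝ}
    (hE : ESl c0 σ al n e f) :
    BSl n (2 ^ (c0 + 2) * e) 52 (fun k p => kl al f k (el c p)) (QA al c) where
  agree := fun k _ _ m hQ y hy => agree_kl ha c f hQ hy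
  pack := fun x0 K _ r s => pack_QA hc0 ha h3 a1' a2' a3' x0 K r s
  l0 := fun k hk m x y => by
    have h := line_kl hc0 ha he hE hk h1 a1' m (c.2.1 * x + c.2.2 * y)
    refine le_trans (le_of_eq (sum_congr rfl fun z _ => ?_)) h
    show kl al f (k + 1) (el c (z, x, y)) ^ 2 = _
    congr 2
    unfold el; ring
  l1 := fun k hk m z y => by
    have h := line_kl hc0 ha he hE hk h2 a2' m (c.1 * z + c.2.2 * y)
    refine le_trans (le_of_eq (sum_congr rfl fun x _ => ?_)) h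
    show kl al f (k + 1) (el c (z, x, y)) ^ 2 = _
    congr 2
    unfold el; ring
  l2 := fun k hk m z x => by
    have h := line_kl hc0 ha he hE hk h3 a3' m (c.1 * z + c.2.1 * x)
    refine le_trans (le_of_eq (sum_congr rfl fun y _ => ?_)) h
    show kl al f (k + 1) (el c (z, x, y)) ^ 2 = _
    congr 2
    unfold el; ring

/-- a larger energy -/
theorem BSl.mono {n : ℕ} {e e' cP : ℝ} {F : ℕ → Pt → ℝ} {Q : ℕ → Pt → Prop}
    (h : BSl n e cP F Q) (he : e ≤ e') : BSl n e' cP F Q where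
  agree := h.agree
  pack := h.pack
  l0 := fun k hk m x y => (h.l0 k hk m x y).trans
    (mul_le_mul_of_nonneg_right he (by positivity))
  l1 := fun k hk m x y => (h.l1 k hk m x y).trans
    (mul_le_mul_of_nonneg_right he (by positivity))
  l2 := fun k hk m x y => (h.l2 k hk m x y).trans
    (mul_le_mul_of_nonneg_right he (by positivity))

/-- **EN5**: from the line to the boxes. -/
theorem cmpSt_holds {c0 : ℕ} (hc0 : 7 ≤ c0) : CmpSt c0 (2 ^ (c0 + 2)) := by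
  intro σ al ha n c h1 h2 h3 b1 b2 b3 e f he hE
  have hB := bsl_kl hc0 ha h1 h2 h3 b1 b2 b3 he hE
  have hT : (4 : ℝ) ≤ 2 ^ (c0 + 2) := by
    rw [pow_add]
    have : (1 : ℝ) ≤ 2 ^ c0 := one_le_pow₀ (by norm_num)
    linarith
  refine ⟨⟨by positivity, QA al c, hB⟩, fun t ht hte hU => ⟨by positivity, ?_, ?_, QA al c, ?_⟩⟩
  · rw [mul_pow]
    exact mul_le_mul_of_nonneg_left hte (by positivity)
  · intro k hk q u
    have h := cube_unif_down (csz_le b1 b2 b3 hc0) ht k (G := f) (A := al (k + 1))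
      (fun s s' hs => ha.const (k + 1) s s' hs)
      (fun s hs q' u' => hU (k + 1) (Nat.le_add_left 1 k) (Nat.succ_le_of_lt hk) s hs q' u') q u
    refine le_trans (le_of_eq ?_) (h.trans (wP_mono_delta
      (mul_le_mul_of_nonneg_right hT ht) _ _))
    rfl
  · refine BSl.mono hB ?_
    have : (2 : ℝ) ^ (c0 + 2) * e * 1 ≤ 2 ^ (c0 + 2) * e * 2 ^ (c0 + 2) :=
      mul_le_mul_of_nonneg_left (by linarith) (by positivity)
    calc (2 : ℝ) ^ (c0 + 2) * e = 2 ^ (c0 + 2) * e * 1 := by ring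
      _ ≤ _ := this
      _ = _ := by ring

end

end Vale.Agent.P141.H205
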