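import Vale.Agent.P141.H205.SCut
import Vale.Agent.P141.H48.ENdefs
import Vale.Agent.P141.H958.StarB

/-!
# Static spectral cut of a labelled path at its affected squares

`lowF Q c F`: on every affected square `(k, n, m)` the input `F (k + 1)` is cut by the spectral
projection of its Gram matrix on the eigenvalues at most `c`.  The result is a path with the same
affected squares, its operator norm squared is at most `c` on every square and rectangle.
-/

namespace Vale.Agent.P141.H205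

open Finset Matrix Vale.Agent.P141.PL Vale.Agent.P141.H103
open Vale.Agent.P075 (Ix val)
open Vale.Agent.P141.H736 (Path Agree)

noncomputable section

open scoped Classical

variable {κ : Type*} [Fintype κ]

/-- Gram matrix of a labelled block, no weight -/
def GQ (k : ℕ) (b : ℤ → ℤ → κ → ℝ) (n m : ℤ) : Matrix (Ix k) (Ix k) ℝ :=
  QW k k b (fun _ => 1) n m

theorem GQ_psd (k : ℕ) (b : ℤ → ℤ → κ → ℝ) (n m : ℤ) : (GQ k b n m).PosSemidef :=
  QW_psd (fun _ => PosSemidef.one) n m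

/-- the spectral projection of the block -/
def prL (k : ℕ) (b : ℤ → ℤ → κ → ℝ) (c : ℝ) (n m : ℤ) : Matrix (Ix k) (Ix k) ℝ :=
  lowP (GQ_psd k b n m).1 c

/-- the cut of the block at the square of scale `k` of the point -/
def cutF (c : ℝ) (k : ℕ) (b : ℤ → ℤ → κ → ℝ) (x y : ℤ) : κ → ℝ :=
  cutv k (prL k b c (ix k x) (ix k y)) (ix k y) (b x) y

theorem cutF_eq (c : ℝ) {k : ℕ} (b : ℤ → ℤ → κ → ℝ) {n m x y : ℤ} (hx : x ∈ iv k n)
    (hy : y ∈ iv k m) : cutF c k b x y = cutv k (prL k b c n m) m (b x) y := by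
  rw [mem_iv] at hx hy
  unfold cutF
  rw [hx, hy]

/-- the low path -/
def lowF (Q : ℕ → ℤ → ℤ → Prop) (c : ℝ) (F : ℕ → ℤ → ℤ → κ → ℝ) : ℕ → ℤ → ℤ → κ → ℝ
  | 0 => 0
  | k + 1 => fun x y => if Q k (ix k x) (ix k y) then cutF c k (F (k + 1)) x y
      else lowF Q c F k x y

variable {Q : ℕ → ℤ → ℤ → Prop} {c : ℝ} {F : ℕ → ℤ → ℤ → κ → ℝ}

theorem lowF_zero : lowF Q c F 0 = 0 := rfl

theorem lowF_on {k : ℕ} {n m x y : ℤ} (hQ : Q k n m) (hx : x ∈ iv k n) (hy : y ∈ iv k m) :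
    lowF Q c F (k + 1) x y = cutv k (prL k (F (k + 1)) c n m) m (F (k + 1) x) y := by
  rw [← cutF_eq c _ hx hy]
  rw [mem_iv] at hx hy
  show (if Q k (ix k x) (ix k y) then cutF c k (F (k + 1)) x y else lowF Q c F k x y) = _
  rw [hx, hy, if_pos hQ]

theorem lowF_off {k : ℕ} {n m x y : ℤ} (hQ : ¬ Q k n m) (hx : x ∈ iv k n) (hy : y ∈ iv k m) :
    lowF Q c F (k + 1) x y = lowF Q c F k x y := by
  rw [mem_iv] at hx hy
  show (if Q k (ix k x) (ix k y) then cutF c k (F (k + 1)) x y else lowF Q c F k x y) = _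
  rw [hx, hy, if_neg hQ]

/-- **the low part is a path with the same affected squares** -/
theorem lowF_path (N : ℕ) (R S : ℤ) (l : κ) :
    Path N R S Q (fun k x y => lowF Q c F k x y l) := by
  intro k _ n _ m _ hQ x hx y hy
  show lowF Q c F (k + 1) x y l = lowF Q c F k x y l
  rw [lowF_off hQ hx hy]

/-- the high part is a path with the same affected squares -/
theorem highF_path {N : ℕ} {R S : ℤ} {l : κ} (hF : Path N R S Q (fun k x y => F k x y l)) :
    Path N R S Q (fun k x y => F k x y l - lowF Q c F k x y l) := by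
  intro k hk n hn m hm hQ x hx y hy
  show F (k + 1) x y l - lowF Q c F (k + 1) x y l = F k x y l - lowF Q c F k x y l
  rw [lowF_off hQ hx hy]
  have := hF k hk n hn m hm hQ x hx y hy
  rw [show F (k + 1) x y l = F k x y l from this]

/-! ### Gram matrices on the affected squares -/

omit [Fintype κ] in
theorem cutv_one (k : ℕ) (m : ℤ) (f : ℤ → κ → ℝ) (j0 : Ix k) (l : κ) (P : Matrix (Ix k) (Ix k) ℝ) :
    f (2 ^ k * m + val k j0) l - cutv k P m f (2 ^ k * m + val k j0) l =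
      cutv k (1 - P) m f (2 ^ k * m + val k j0) l := by
  rw [cutv_val, cutv_val]
  have e : ∀ j, f (2 ^ k * m + val k j) l * (1 - P) j j0 =
      f (2 ^ k * m + val k j) l * (1 : Matrix (Ix k) (Ix k) ℝ) j j0 -
        f (2 ^ k * m + val k j) l * P j j0 := by
    intro j
    rw [Matrix.sub_apply]
    ring
  rw [sum_congr rfl fun j _ => e j, sum_sub_distrib]
  congr 1
  rw [sum_eq_single j0]
  · rw [Matrix.one_apply_eq, mul_one]
  · intro j _ hj
    rw [Matrix.one_apply_ne hj, mul_zero]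
  · intro h
    exact absurd (mem_univ _) h

/-- weighted Gram matrix of the low part on an affected square; `a` any outer scale with the
outer cell inside the square -/
theorem QW_low {k : ℕ} {n m : ℤ} (hQ : Q k n m) (M : ℤ → Matrix κ κ ℝ) :
    QW k k (lowF Q c F (k + 1)) M n m =
      prL k (F (k + 1)) c n m * QW k k (F (k + 1)) M n m * prL k (F (k + 1)) c n m := by
  have h := QW_cut k k (prL k (F (k + 1)) c n m) (F (k + 1)) M n m
  have ht : (prL k (F (k + 1)) c n m)ᵀ = prL k (F (k + 1)) c n m := lowP_transpose _ _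
  rw [ht] at h
  rw [← h]
  ext j j'
  unfold QW
  congr 1
  refine sum_congr rfl fun x hx => ?_
  have e : ∀ j : Ix k, 2 ^ k * m + val k j ∈ iv k m := by
    intro j
    rw [iv, mem_Ico]
    have h1 : ((val k j : ℕ) : ℤ) < 2 ^ k := by exact_mod_cast Vale.Agent.P075.val_lt k j
    have h2 : (0 : ℤ) ≤ (val k j : ℤ) := by positivity
    constructor <;> linarith
  rw [lowF_on hQ hx (e j), lowF_on hQ hx (e j')]

theorem QW_high {k : ℕ} {n m : ℤ} (hQ : Q k n m) (M : ℤ → Matrix κ κ ℝ) :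
    QW k k (fun x y l => F (k + 1) x y l - lowF Q c F (k + 1) x y l) M n m =
      (1 - prL k (F (k + 1)) c n m) * QW k k (F (k + 1)) M n m *
        (1 - prL k (F (k + 1)) c n m) := by
  have h := QW_cut k k (1 - prL k (F (k + 1)) c n m) (F (k + 1)) M n m
  have ht : (1 - prL k (F (k + 1)) c n m)ᵀ = 1 - prL k (F (k + 1)) c n m :=
    highP_transpose _ _
  rw [ht] at h
  rw [← h]
  ext j j'
  unfold QW
  congr 1
  refine sum_congr rfl fun x hx => ?_
  have e : ∀ j : Ix k, 2 ^ k * m + val k j ∈ iv k m := by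
    intro j
    rw [iv, mem_Ico]
    have h1 : ((val k j : ℕ) : ℤ) < 2 ^ k := by exact_mod_cast Vale.Agent.P075.val_lt k j
    have h2 : (0 : ℤ) ≤ (val k j : ℤ) := by positivity
    constructor <;> linarith
  have f : ∀ j : Ix k, (fun l => F (k + 1) x (2 ^ k * m + val k j) l -
      lowF Q c F (k + 1) x (2 ^ k * m + val k j) l) =
      cutv k (1 - prL k (F (k + 1)) c n m) m (F (k + 1) x) (2 ^ k * m + val k j) := by
    intro j
    funext l
    rw [lowF_on hQ hx (e j), cutv_one]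
  beta_reduce
  rw [f j, f j']

/-- **own energies on an affected square** -/
theorem own_split {k : ℕ} {n m : ℤ} (hQ : Q k n m) :
    (GQ k (lowF Q c F (k + 1)) n m * GQ k (lowF Q c F (k + 1)) n m).trace +
      (GQ k (fun x y l => F (k + 1) x y l - lowF Q c F (k + 1) x y l) n m *
        GQ k (fun x y l => F (k + 1) x y l - lowF Q c F (k + 1) x y l) n m).trace =
      (GQ k (F (k + 1)) n m * GQ k (F (k + 1)) n m).trace := by
  unfold GQ
  rw [QW_low hQ, QW_high hQ]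
  exact trace_low_high (GQ_psd k (F (k + 1)) n m).1 c

/-- energies on an affected square -/
theorem en_split {k : ℕ} {n m : ℤ} (hQ : Q k n m) :
    (GQ k (lowF Q c F (k + 1)) n m).trace +
      (GQ k (fun x y l => F (k + 1) x y l - lowF Q c F (k + 1) x y l) n m).trace =
      (GQ k (F (k + 1)) n m).trace := by
  unfold GQ
  rw [QW_low hQ, QW_high hQ]
  exact trace_low_high_one (GQ_psd k (F (k + 1)) n m).1 c

/-- the weighted own energy of the low part is at most the one of the input -/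
theorem QW_low_le {k : ℕ} {n m : ℤ} (hQ : Q k n m) {M : ℤ → Matrix κ κ ℝ}
    (hM : ∀ x, (M x)ᵀ = M x) :
    (QW k k (lowF Q c F (k + 1)) M n m * QW k k (lowF Q c F (k + 1)) M n m).trace ≤
      (QW k k (F (k + 1)) M n m * QW k k (F (k + 1)) M n m).trace := by
  rw [QW_low hQ]
  exact tr_cut_le (lowP_transpose _ _) (lowP_idem _ _) (QW_symm hM n m)

/-! ### The cap -/

/-- operator cap on a rectangle: outer scale `a`, middle scale `k` -/
def CapS (c : ℝ) (a k : ℕ) (b : ℤ → ℤ → κ → ℝ) (n m : ℤ) : Prop :=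
  ∀ w : ℤ → ℝ, ∑ x ∈ iv a n, ∑ l, (∑ y ∈ iv k m, w y * b x y l) ^ 2 ≤
    c * (2 ^ a * 2 ^ k) * ∑ y ∈ iv k m, w y ^ 2

/-- the cap as a property of the Gram matrix -/
theorem capS_iff {c : ℝ} {k : ℕ} {b : ℤ → ℤ → κ → ℝ} {n m : ℤ}
    (h : ∀ w : Ix k → ℝ, w ⬝ᵥ GQ k b n m *ᵥ w ≤ c * (w ⬝ᵥ w)) : CapS c k k b n m := by
  intro w
  have h1 := h fun j => w (2 ^ k * m + val k j)
  have e1 : (fun j : Ix k => w (2 ^ k * m + val k j)) ⬝ᵥ
      (fun j : Ix k => w (2 ^ k * m + val k j)) = ∑ y ∈ iv k m, w y ^ 2 := by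
    rw [H588.sum_iv]
    exact sum_congr rfl fun j _ => by ring
  have e2 : (fun j : Ix k => w (2 ^ k * m + val k j)) ⬝ᵥ GQ k b n m *ᵥ
      (fun j : Ix k => w (2 ^ k * m + val k j)) = ((2 : ℝ) ^ k * 2 ^ k)⁻¹ *
      ∑ x ∈ iv k n, ∑ l, (∑ y ∈ iv k m, w y * b x y l) ^ 2 := by
    have e3 : ∀ x, ∑ l, (∑ y ∈ iv k m, w y * b x y l) ^ 2 =
        ∑ j : Ix k, ∑ j' : Ix k, w (2 ^ k * m + val k j) * w (2 ^ k * m + val k j') *
          (b x (2 ^ k * m + val k j) ⬝ᵥ b x (2 ^ k * m + val k j')) := by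
      intro x
      have e4 : ∀ l, (∑ y ∈ iv k m, w y * b x y l) ^ 2 =
          ∑ j : Ix k, ∑ j' : Ix k, w (2 ^ k * m + val k j) * w (2 ^ k * m + val k j') *
            (b x (2 ^ k * m + val k j) l * b x (2 ^ k * m + val k j') l) := by
        intro l
        rw [H588.sum_iv, sq, Finset.sum_mul_sum]
        exact sum_congr rfl fun j _ => sum_congr rfl fun j' _ => by ring
      simp only [e4]
      rw [sum_comm]
      refine sum_congr rfl fun j _ => ?_
      rw [sum_comm]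
      refine sum_congr rfl fun j' _ => ?_
      rw [dotProduct, mul_sum]
    have hG : ∀ j j' : Ix k, GQ k b n m j j' = ((2 : ℝ) ^ k * 2 ^ k)⁻¹ *
        ∑ x ∈ iv k n, b x (2 ^ k * m + val k j) ⬝ᵥ b x (2 ^ k * m + val k j') := by
      intro j j'
      unfold GQ QW
      congr 1
      refine sum_congr rfl fun x _ => ?_
      rw [one_mulVec]
    have e5 : (fun j : Ix k => w (2 ^ k * m + val k j)) ⬝ᵥ GQ k b n m *ᵥ
        (fun j : Ix k => w (2 ^ k * m + val k j)) = ∑ j : Ix k, w (2 ^ k * m + val k j) *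
          ∑ j' : Ix k, GQ k b n m j j' * w (2 ^ k * m + val k j') := rfl
    rw [e5]
    simp only [e3, hG]
    rw [sum_comm, mul_sum]
    refine sum_congr rfl fun j _ => ?_
    rw [sum_comm, mul_sum, mul_sum]
    refine sum_congr rfl fun j' _ => ?_
    rw [← mul_sum]
    ring
  rw [e1, e2] at h1
  have hp : (0 : ℝ) < 2 ^ k * 2 ^ k := by positivity
  rw [inv_mul_le_iff₀ hp] at h1
  refine h1.trans (le_of_eq ?_)
  ring

theorem capS_low {k : ℕ} {n m : ℤ} (hc : 0 ≤ c) (hQ : Q k n m) :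
    CapS c k k (lowF Q c F (k + 1)) n m := by
  refine capS_iff fun w => ?_
  unfold GQ
  rw [QW_low hQ]
  exact low_form (GQ_psd k (F (k + 1)) n m).1 hc w

omit [Fintype κ] in
theorem sum_iv_two' (k : ℕ) (m : ℤ) (f : ℤ → ℝ) :
    ∑ y ∈ iv (k + 1) m, f y = ∑ y ∈ iv k (2 * m), f y + ∑ y ∈ iv k (2 * m + 1), f y :=
  sum_iv_two k m f

/-- four children -/
theorem capS_four {c : ℝ} {k : ℕ} {b : ℤ → ℤ → κ → ℝ} {n m : ℤ}
    (h : ∀ n' ∈ ({2 * n, 2 * n + 1} : Set ℤ), ∀ m' ∈ ({2 * m, 2 * m + 1} : Set ℤ),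
      CapS c k k b n' m') : CapS c (k + 1) (k + 1) b n m := by
  intro w
  have h0 : ∀ n' ∈ ({2 * n, 2 * n + 1} : Set ℤ), ∑ x ∈ iv k n', ∑ l,
      (∑ y ∈ iv (k + 1) m, w y * b x y l) ^ 2 ≤
      2 * (c * (2 ^ k * 2 ^ k) * ∑ y ∈ iv (k + 1) m, w y ^ 2) := by
    intro n' hn'
    have h1 := h n' hn' (2 * m) (by simp) w
    have h2 := h n' hn' (2 * m + 1) (by simp) w
    rw [sum_iv_two' k m fun y => w y ^ 2]
    have h3 : ∑ x ∈ iv k n', ∑ l, (∑ y ∈ iv (k + 1) m, w y * b x y l) ^ 2 ≤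
        ∑ x ∈ iv k n', ∑ l, (2 * (∑ y ∈ iv k (2 * m), w y * b x y l) ^ 2 +
          2 * (∑ y ∈ iv k (2 * m + 1), w y * b x y l) ^ 2) := by
      refine sum_le_sum fun x _ => sum_le_sum fun l _ => ?_
      rw [sum_iv_two' k m fun y => w y * b x y l]
      nlinarith [sq_nonneg ((∑ y ∈ iv k (2 * m), w y * b x y l) -
        ∑ y ∈ iv k (2 * m + 1), w y * b x y l)]
    refine h3.trans ?_
    simp only [sum_add_distrib, ← mul_sum]
    nlinarith
  have h1 := h0 (2 * n) (by simp)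
  have h2 := h0 (2 * n + 1) (by simp)
  rw [sum_iv_two' k n fun x => ∑ l, (∑ y ∈ iv (k + 1) m, w y * b x y l) ^ 2]
  have e : c * (2 ^ (k + 1) * 2 ^ (k + 1)) * ∑ y ∈ iv (k + 1) m, w y ^ 2 =
      2 * (c * (2 ^ k * 2 ^ k) * ∑ y ∈ iv (k + 1) m, w y ^ 2) +
      2 * (c * (2 ^ k * 2 ^ k) * ∑ y ∈ iv (k + 1) m, w y ^ 2) := by
    rw [pow_succ]; ring
  rw [e]
  exact add_le_add h1 h2

/-- outer cells -/
theorem capS_out {c : ℝ} {a k : ℕ} {b : ℤ → ℤ → κ → ℝ} {n m : ℤ}
    (h1 : CapS c a k b (2 * n) m) (h2 : CapS c a k b (2 * n + 1) m) : CapS c (a + 1) k b n m := by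
  intro w
  rw [sum_iv_two' a n fun x => ∑ l, (∑ y ∈ iv k m, w y * b x y l) ^ 2]
  have e : c * (2 ^ (a + 1) * 2 ^ k) * ∑ y ∈ iv k m, w y ^ 2 =
      c * (2 ^ a * 2 ^ k) * ∑ y ∈ iv k m, w y ^ 2 +
      c * (2 ^ a * 2 ^ k) * ∑ y ∈ iv k m, w y ^ 2 := by
    rw [pow_succ]; ring
  rw [e]
  exact add_le_add (h1 w) (h2 w)

theorem capS_congr {c : ℝ} {a k : ℕ} {b b' : ℤ → ℤ → κ → ℝ} {n m : ℤ}
    (h : ∀ x ∈ iv a n, ∀ y ∈ iv k m, b x y = b' x y) (hb : CapS c a k b n m) :
    CapS c a k b' n m := by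
  intro w
  refine le_trans (le_of_eq ?_) (hb w)
  refine sum_congr rfl fun x hx => sum_congr rfl fun l _ => ?_
  congr 1
  exact sum_congr rfl fun y hy => by rw [h x hx y hy]

/-- **The cap on every square.** -/
theorem capS_path (hc : 0 ≤ c) (hQ0 : ∀ n m, Q 0 n m) :
    ∀ (k : ℕ) (n m : ℤ), CapS c k k (lowF Q c F (k + 1)) n m
  | 0, n, m => capS_low hc (hQ0 n m)
  | k + 1, n, m => by
      by_cases hQ : Q (k + 1) n m
      · exact capS_low hc hQ
      · have h1 : CapS c (k + 1) (k + 1) (lowF Q c F (k + 1)) n m :=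
          capS_four fun n' _ m' _ => capS_path hc hQ0 k n' m'
        exact capS_congr (fun x hx y hy => (lowF_off hQ hx hy).symm) h1

/-- **The cap on every rectangle with the longer side in the outer variable.** -/
theorem capS_rect (hc : 0 ≤ c) (hQ0 : ∀ n m, Q 0 n m) (k : ℕ) :
    ∀ (r : ℕ) (n m : ℤ), CapS c (k + r) k (lowF Q c F (k + 1)) n m
  | 0, n, m => capS_path hc hQ0 k n m
  | r + 1, n, m => capS_out (capS_rect hc hQ0 k r (2 * n) m) (capS_rect hc hQ0 k r (2 * n + 1) m)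

end

end Vale.Agent.P141.H205
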