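import Vale.Agent.P141.H419.WpBox
import Vale.Agent.P141.PL.H318.Sys1

/-!
# P141, line W, squad EN: atoms cut to a subcube, two cells, pair weight

An atom cut to the subcube of scale `k` of a cube of scale `k + 1` costs at most twice its weight
on the subcube; a function which is uniform on the alive cells of scale `k + 1`, killed on the
other cells, is uniform on all cubes of scale `k`.
-/

namespace Vale.Agent.P141.H205

open Finset Vale.Agent.P141.PL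
open Vale.Agent.P141.H315 (dot)
open Vale.Agent.P141.PL.H315 (cube3 mem_cube3 gz card_cube3 atm e12 e13 e23 Tri avg)
open Vale.Agent.P141.PL.H318 (ixs a1 dot_a1 mem_gs two_cells_el csz)
open Vale.Agent.P141.PL.H95 (gr)
open Vale.Agent.P141.H922 (n2 n4 nN pw3 wP n2_nonneg n4_nonneg nN_nonneg pw3_nonneg wP_nonneg)
open Vale.Agent.P141.H419

noncomputable section

/-! ### Cut functions -/

section cut

variable {X : Type*} [DecidableEq X]

/-- the average of a cut function -/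
theorem avg_cut {S S' : Finset X} (h : S ⊆ S') (hc : (S'.card : ℝ) = 4 * S.card) (g : X → ℝ) :
    avg S' (fun x => if x ∈ S then g x else 0) = 1 / 4 * avg S g := by
  unfold avg
  rw [← sum_filter, filter_mem_eq_inter, inter_eq_right.mpr h, hc, mul_inv]
  ring

theorem n2_cut {S S' : Finset X} (h : S ⊆ S') (hc : (S'.card : ℝ) = 4 * S.card) (f : X → ℝ) :
    n2 S' (fun x => if x ∈ S then f x else 0) = 1 / 2 * n2 S f := by
  have h1 : (avg S' fun x => (if x ∈ S then f x else 0) ^ 2) =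
      1 / 4 * avg S fun x => f x ^ 2 := by
    rw [← avg_cut h hc]
    congr 1
    funext x
    split_ifs <;> simp
  unfold n2
  rw [h1, Real.sqrt_mul (by norm_num), show (1 / 4 : ℝ) = (1 / 2) ^ 2 by norm_num,
    Real.sqrt_sq (by norm_num)]

theorem n4_cut {S S' : Finset X} (h : S ⊆ S') (hc : (S'.card : ℝ) = 4 * S.card) (f : X → ℝ) :
    n4 S' (fun x => if x ∈ S then f x else 0) ≤ n4 S f := by
  have h1 : (avg S' fun x => (if x ∈ S then f x else 0) ^ 4) =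
      1 / 4 * avg S fun x => f x ^ 4 := by
    rw [← avg_cut h hc]
    congr 1
    funext x
    split_ifs <;> simp
  have h2 : 0 ≤ avg S fun x => f x ^ 4 := H922.avg_four_nonneg S f
  unfold H922.n4
  rw [h1]
  exact Real.sqrt_le_sqrt (Real.sqrt_le_sqrt (by linarith))

theorem nN_cut {S S' : Finset X} (h : S ⊆ S') (hc : (S'.card : ℝ) = 4 * S.card) (f : X → ℝ) :
    nN S' (fun x => if x ∈ S then f x else 0) ≤ √(1 / 2) * nN S f := by
  unfold nN
  rw [← Real.sqrt_mul (by norm_num)]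
  refine Real.sqrt_le_sqrt ?_
  rw [n2_cut h hc]
  have h1 := n4_cut h hc f
  have h2 := n2_nonneg S f
  have := mul_le_mul_of_nonneg_left h1 (by linarith : 0 ≤ 1 / 2 * n2 S f)
  linarith

end cut

/-! ### Cut atoms -/

/-- an atom cut to the cube of scale `k` -/
def cutT (k : ℕ) (q : Pt) (u : Tri) : Tri :=
  (fun w => if w ∈ H315.iv k q.1 ×ˢ H315.iv k q.2.1 then u.1 w else 0,
   fun w => if w ∈ H315.iv k q.1 ×ˢ H315.iv k q.2.2 then u.2.1 w else 0,
   fun w => if w ∈ H315.iv k q.2.1 ×ˢ H315.iv k q.2.2 then u.2.2 w else 0)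

theorem atm_cutT (k : ℕ) (q : Pt) (u : Tri) (y : Pt) :
    atm (cutT k q u) y = if y ∈ cube3 k q then atm u y else 0 := by
  unfold atm e12 e13 e23 cutT
  simp only [mem_product, mem_cube3]
  by_cases h1 : y.1 ∈ H315.iv k q.1 <;> by_cases h2 : y.2.1 ∈ H315.iv k q.2.1 <;>
    by_cases h3 : y.2.2 ∈ H315.iv k q.2.2 <;> simp [h1, h2, h3]

theorem iv_sub (k : ℕ) (x : ℤ) : H315.iv k x ⊆ H315.iv (k + 1) x := by
  intro y hy
  rw [H315.mem_iv] at hy ⊢
  rw [pow_succ, ← Int.ediv_ediv_of_nonneg (by positivity),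
    ← Int.ediv_ediv_of_nonneg (by positivity), hy]

theorem iv_ne (k : ℕ) (x : ℤ) : (H315.iv k x).Nonempty := ⟨x, H315.mem_iv.mpr rfl⟩

theorem sq_sub (k : ℕ) (x y : ℤ) :
    H315.iv k x ×ˢ H315.iv k y ⊆ H315.iv (k + 1) x ×ˢ H315.iv (k + 1) y :=
  product_subset_product (iv_sub k x) (iv_sub k y)

theorem sq_card (k : ℕ) (x y : ℤ) :
    ((H315.iv (k + 1) x ×ˢ H315.iv (k + 1) y).card : ℝ) =
      4 * (H315.iv k x ×ˢ H315.iv k y).card := by
  rw [card_product, card_product, H315.card_iv, H315.card_iv, H315.card_iv, H315.card_iv]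
  push_cast
  ring

/-- **A cut atom costs at most twice.** -/
theorem wP_cutT {t : ℝ} (ht : 0 ≤ t) (k : ℕ) (q : Pt) (u : Tri) :
    wP t (cube3 (k + 1) q) (cutT k q u) ≤ 2 * wP t (cube3 k q) u := by
  set I1 := H315.iv k q.1 with hI1
  set I2 := H315.iv k q.2.1 with hI2
  set I3 := H315.iv k q.2.2 with hI3
  set J1 := H315.iv (k + 1) q.1 with hJ1
  set J2 := H315.iv (k + 1) q.2.1 with hJ2
  set J3 := H315.iv (k + 1) q.2.2 with hJ3
  set v := cutT k q u with hv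
  have e' : pw3 (cube3 (k + 1) q) v = nN (J1 ×ˢ J2) v.1 * nN (J1 ×ˢ J3) v.2.1 *
      n2 (J2 ×ˢ J3) v.2.2 + nN (J1 ×ˢ J2) v.1 * nN (J2 ×ˢ J3) v.2.2 * n2 (J1 ×ˢ J3) v.2.1 +
      nN (J1 ×ˢ J3) v.2.1 * nN (J2 ×ˢ J3) v.2.2 * n2 (J1 ×ˢ J2) v.1 :=
    pw3_box (iv_ne (k + 1) q.1) (iv_ne (k + 1) q.2.1) (iv_ne (k + 1) q.2.2) v
  have e : pw3 (cube3 k q) u = nN (I1 ×ˢ I2) u.1 * nN (I1 ×ˢ I3) u.2.1 *
      n2 (I2 ×ˢ I3) u.2.2 + nN (I1 ×ˢ I2) u.1 * nN (I2 ×ˢ I3) u.2.2 * n2 (I1 ×ˢ I3) u.2.1 +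
      nN (I1 ×ˢ I3) u.2.1 * nN (I2 ×ˢ I3) u.2.2 * n2 (I1 ×ˢ I2) u.1 :=
    pw3_box (iv_ne k q.1) (iv_ne k q.2.1) (iv_ne k q.2.2) u
  have a12 : n2 (J1 ×ˢ J2) v.1 = 1 / 2 * n2 (I1 ×ˢ I2) u.1 :=
    n2_cut (sq_sub k q.1 q.2.1) (sq_card k q.1 q.2.1) u.1
  have a13 : n2 (J1 ×ˢ J3) v.2.1 = 1 / 2 * n2 (I1 ×ˢ I3) u.2.1 :=
    n2_cut (sq_sub k q.1 q.2.2) (sq_card k q.1 q.2.2) u.2.1
  have a23 : n2 (J2 ×ˢ J3) v.2.2 = 1 / 2 * n2 (I2 ×ˢ I3) u.2.2 :=
    n2_cut (sq_sub k q.2.1 q.2.2) (sq_card k q.2.1 q.2.2) u.2.2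
  have b12 : nN (J1 ×ˢ J2) v.1 ≤ √(1 / 2) * nN (I1 ×ˢ I2) u.1 :=
    nN_cut (sq_sub k q.1 q.2.1) (sq_card k q.1 q.2.1) u.1
  have b13 : nN (J1 ×ˢ J3) v.2.1 ≤ √(1 / 2) * nN (I1 ×ˢ I3) u.2.1 :=
    nN_cut (sq_sub k q.1 q.2.2) (sq_card k q.1 q.2.2) u.2.1
  have b23 : nN (J2 ×ˢ J3) v.2.2 ≤ √(1 / 2) * nN (I2 ×ˢ I3) u.2.2 :=
    nN_cut (sq_sub k q.2.1 q.2.2) (sq_card k q.2.1 q.2.2) u.2.2
  have hs : √(1 / 2 : ℝ) * √(1 / 2 : ℝ) = 1 / 2 := Real.mul_self_sqrt (by norm_num)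
  have hs0 : 0 ≤ √(1 / 2 : ℝ) := Real.sqrt_nonneg _
  have key : ∀ {a b c a' b' c' : ℝ}, 0 ≤ a → 0 ≤ b → 0 ≤ c → 0 ≤ a' → 0 ≤ b' → 0 ≤ c' →
      a' ≤ √(1 / 2) * a → b' ≤ √(1 / 2) * b → c' = 1 / 2 * c → a' * b' * c' ≤
        1 / 4 * (a * b * c) := by
    intro a b c a' b' c' ha hb hc ha' hb' hc' h1 h2 h3
    rw [h3]
    calc a' * b' * (1 / 2 * c) ≤ (√(1 / 2) * a) * (√(1 / 2) * b) * (1 / 2 * c) := by
          gcongr
      _ = (√(1 / 2) * √(1 / 2)) * (1 / 2) * (a * b * c) := by ring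
      _ = _ := by rw [hs]; ring
  have k1 := key (nN_nonneg _ _) (nN_nonneg _ _) (n2_nonneg _ _) (nN_nonneg _ _) (nN_nonneg _ _)
    (n2_nonneg _ _) b12 b13 a23
  have k2 := key (nN_nonneg _ _) (nN_nonneg _ _) (n2_nonneg _ _) (nN_nonneg _ _) (nN_nonneg _ _)
    (n2_nonneg _ _) b12 b23 a13
  have k3 := key (nN_nonneg _ _) (nN_nonneg _ _) (n2_nonneg _ _) (nN_nonneg _ _) (nN_nonneg _ _)
    (n2_nonneg _ _) b13 b23 a12
  have hp : pw3 (cube3 (k + 1) q) v ≤ 1 / 4 * pw3 (cube3 k q) u := by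
    rw [e', e]
    linarith
  unfold wP
  rw [card_cube3, card_cube3]
  push_cast
  rw [pow_succ]
  have h8 : (0 : ℝ) ≤ t * (8 ^ k * 8) := by positivity
  have := mul_le_mul_of_nonneg_left hp h8
  refine this.trans (le_of_eq ?_)
  ring

/-! ### Two cells -/

open scoped Classical

/-- Uniformity of `1_A G` on the cubes of scale `k`, if `G` is uniform on the cells of scale `k`
in `A`, pair weight. -/
theorem cube_unifP {c0 : ℕ} {σ : ℤ} {c : ℤ × ℤ × ℤ} (hc : csz c ≤ 2 ^ c0) {t : ℝ} (ht : 0 ≤ t)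
    (k : ℕ) {G : ℤ → ℝ} {A : ℤ → Prop}
    (hA : ∀ s s', ixs c0 σ k s' = ixs c0 σ k s → (A s' ↔ A s))
    (hG : ∀ s, A s → ∀ (q : Pt) (u : Tri),
      |dot ((gr c0 σ).cube k s) G (a1 c k (q, u))| ≤ wP t (cube3 k q) u)
    (q : Pt) (u : Tri) :
    |∑ y ∈ cube3 k q, (if A (el c y) then G (el c y) else 0) * atm u y| ≤
      2 * wP t (cube3 k q) u := by
  obtain ⟨m, hm⟩ := two_cells_el (c0 := c0) (σ := σ) hc k q
  have hw : 0 ≤ wP t (cube3 k q) u := wP_nonneg ht _ _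
  have key : ∀ m' : ℤ, |∑ y ∈ cube3 k q, (if ixs c0 σ k (el c y) = m' then
      (if A (el c y) then G (el c y) else 0) * atm u y else 0)| ≤ wP t (cube3 k q) u := by
    intro m'
    by_cases hex : ∃ s, ixs c0 σ k s = m' ∧ A s
    · obtain ⟨s, hs, hAs⟩ := hex
      have h1 := hG s hAs q u
      rw [dot_a1] at h1
      refine le_trans (le_of_eq ?_) h1
      congr 1
      refine Finset.sum_congr rfl fun y _ => ?_
      by_cases hy : ixs c0 σ k (el c y) = m'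
      · have h2 : el c y ∈ (gr c0 σ).cube k s := mem_gs.mpr (by rw [hy, hs])
        have h3 : A (el c y) := (hA s (el c y) (by rw [hy, hs])).mpr hAs
        rw [if_pos hy, if_pos h2, if_pos h3]
      · have h2 : el c y ∉ (gr c0 σ).cube k s := fun h => hy (by rw [mem_gs.mp h, hs])
        rw [if_neg hy, if_neg h2]
    · have h1 : ∑ y ∈ cube3 k q, (if ixs c0 σ k (el c y) = m' then
          (if A (el c y) then G (el c y) else 0) * atm u y else 0) = 0 := by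
        refine Finset.sum_eq_zero fun y _ => ?_
        by_cases hy : ixs c0 σ k (el c y) = m'
        · have h3 : ¬ A (el c y) := fun h => hex ⟨el c y, hy, h⟩
          rw [if_pos hy, if_neg h3, zero_mul]
        · rw [if_neg hy]
      rw [h1, abs_zero]; exact hw
  have hsplit : ∑ y ∈ cube3 k q, (if A (el c y) then G (el c y) else 0) * atm u y =
      (∑ y ∈ cube3 k q, (if ixs c0 σ k (el c y) = m then
        (if A (el c y) then G (el c y) else 0) * atm u y else 0)) +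
      (∑ y ∈ cube3 k q, (if ixs c0 σ k (el c y) = m + 1 then
        (if A (el c y) then G (el c y) else 0) * atm u y else 0)) := by
    rw [← Finset.sum_add_distrib]
    refine Finset.sum_congr rfl fun y hy => ?_
    rcases hm y hy with h | h
    · have h' : ixs c0 σ k (el c y) ≠ m + 1 := by omega
      rw [if_pos (c := ixs c0 σ k (el c y) = m) h,
        if_neg (c := ixs c0 σ k (el c y) = m + 1) h', add_zero]
    · have h' : ixs c0 σ k (el c y) ≠ m := by omega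
      rw [if_neg (c := ixs c0 σ k (el c y) = m) h',
        if_pos (c := ixs c0 σ k (el c y) = m + 1) h, zero_add]
  rw [hsplit]
  refine (abs_add_le _ _).trans ?_
  have := key m
  have := key (m + 1)
  linarith

/-- **Two cells, one scale down**: uniformity on the alive cells of scale `k + 1` gives uniformity
on the cubes of scale `k`. -/
theorem cube_unif_down {c0 : ℕ} {σ : ℤ} {c : ℤ × ℤ × ℤ} (hc : csz c ≤ 2 ^ c0) {t : ℝ}
    (ht : 0 ≤ t) (k : ℕ) {G : ℤ → ℝ} {A : ℤ → Prop}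
    (hA : ∀ s s', ixs c0 σ (k + 1) s' = ixs c0 σ (k + 1) s → (A s' ↔ A s))
    (hG : ∀ s, A s → ∀ (q : Pt) (u : Tri),
      |dot ((gr c0 σ).cube (k + 1) s) G (a1 c (k + 1) (q, u))| ≤ wP t (cube3 (k + 1) q) u)
    (q : Pt) (u : Tri) :
    |∑ y ∈ cube3 k q, (if A (el c y) then G (el c y) else 0) * atm u y| ≤
      wP (4 * t) (cube3 k q) u := by
  have h1 := cube_unifP hc ht (k + 1) hA hG q (cutT k q u)
  have hsub : cube3 k q ⊆ cube3 (k + 1) q := gz.sub_le (Nat.le_succ k) q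
  have h2 : ∑ y ∈ cube3 (k + 1) q, (if A (el c y) then G (el c y) else 0) *
      atm (cutT k q u) y = ∑ y ∈ cube3 k q, (if A (el c y) then G (el c y) else 0) *
        atm u y := by
    rw [← sum_subset hsub]
    · exact sum_congr rfl fun y hy => by rw [atm_cutT, if_pos hy]
    · intro y _ hy
      rw [atm_cutT, if_neg hy, mul_zero]
  rw [h2] at h1
  refine h1.trans ?_
  have h3 := wP_cutT ht k q u
  calc 2 * wP t (cube3 (k + 1) q) (cutT k q u) ≤ 2 * (2 * wP t (cube3 k q) u) := by linarith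
    _ = wP (4 * t) (cube3 k q) u := by unfold wP; ring

end

end Vale.Agent.P141.H205
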