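import Vale.Agent.P141.H205.HPart
import Vale.Agent.P141.H482.CutQ
import Vale.Agent.P141.H769.EN3

/-!
# P141, line (A): own energies of the high parts, summed over the points

`SlG` : a uniform slot on the cubes.  `SqD` : on every square inside the root the family is zero
or the slot times vectors of length at most one and mass at most `W`.

* `own_high_sum` : the own energies of the part above `τ ^ 2` are at most `c bs t e τ W 8 ^ K`;
* `pow_sum` : the square energies are at most `c e W 8 ^ K`;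
* `own_sum` : the own energies of the family.
-/

namespace Vale.Agent.P141.H205

open Finset Matrix
open Vale.Agent.P075 (Ix val)
open Vale.Agent.P141.PL (Pt iv hs ix mem_iv tri cx)
open Vale.Agent.P141.PL.H315 (avg avg_nonneg)
open Vale.Agent.P141.H736 (Path sqb sqQ)
open Vale.Agent.P141.H958 (Aff s4 pwr mem_Aff sum_Aff PackQ lbs fl)
open Vale.Agent.P141.H48 (own4 BSl BUn US)
open Vale.Agent.P141.H834 (UnifP LineB)
open Vale.Agent.P141.H482 (bd un)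
open Vale.Agent.P141.H922 (n2 n4 nN)

noncomputable section

open scoped Classical

/-! ### One slot -/

/-- a uniform slot on the cubes of scale less than `N` -/
structure SlG (N : ℕ) (t e : ℝ) (G : ℕ → Pt → ℝ) : Prop where
  uni : ∀ k < N, ∀ i0 n m : ℤ, UnifP t (iv k i0) (iv k n) (iv k m) (G (k + 1))
  lin : ∀ k < N, ∀ i0 n m : ℤ, LineB e (iv k i0) (iv k n) (iv k m) (G (k + 1))
  l0 : ∀ k < N, ∀ m x y : ℤ, ∑ z ∈ iv k m, G (k + 1) (z, x, y) ^ 2 ≤ e * 2 ^ k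

theorem slG_of {N : ℕ} {t e cP : ℝ} {F : ℕ → Pt → ℝ} {Q : ℕ → Pt → Prop} (hB : BSl N e cP F Q)
    (hU : BUn N t F) : SlG N t e F where
  uni := fun _ hk i0 n m => H482.unifP_of hU hk (i0, n, m)
  lin := fun _ hk i0 n m => H206.lineB_of hB hk (i0, n, m)
  l0 := hB.l0

/-- the slot with exchanged last variables -/
theorem SlG.sw {N : ℕ} {t e : ℝ} {G : ℕ → Pt → ℝ} (h : SlG N t e G) :
    SlG N t e fun k q => G k (q.1, q.2.2, q.2.1) where
  uni := fun k hk i0 n m => H573.unifP_132 (h.uni k hk i0 m n)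
  lin := fun k hk i0 n m => H573.lineB_132 (h.lin k hk i0 m n)
  l0 := fun k hk m x y => h.l0 k hk m y x

theorem SlG.mono {N K : ℕ} (hK : K ≤ N) {t e : ℝ} {G : ℕ → Pt → ℝ} (h : SlG N t e G) :
    SlG K t e G where
  uni := fun k hk => h.uni k (hk.trans_le hK)
  lin := fun k hk => h.lin k (hk.trans_le hK)
  l0 := fun k hk => h.l0 k (hk.trans_le hK)

/-! ### Numbers -/

/-- the bound for mass `W`, heights one -/
def bs (t e τ W : ℝ) : ℝ := 8 * ((24 * t) ^ 8 * W ^ 3 * e / τ ^ 6 + (12 * t) ^ 4 * W ^ 2 * e / τ ^ 2)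

theorem bs_nonneg {t e τ W : ℝ} (_ : 0 ≤ t) (he : 0 ≤ e) (hτ : 0 < τ) (hW : 0 ≤ W) :
    0 ≤ bs t e τ W := by
  unfold bs
  positivity

theorem bd_le_bs {t e τ W a b : ℝ} (_ : 0 ≤ t) (he : 0 ≤ e) (hτ : 0 < τ)
    (ha : a ^ 8 ≤ W ^ 3) (hb : b ^ 4 ≤ W ^ 2) : bd t e 1 τ a b ≤ bs t e τ W := by
  unfold bd bs
  have k5 : 0 ≤ (12 * t) ^ 4 := by positivity
  have h1 : (24 * t) ^ 8 * a ^ 8 * (1 ^ 2 * e) / τ ^ 6 ≤ (24 * t) ^ 8 * W ^ 3 * e / τ ^ 6 := by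
    rw [one_pow, one_mul]
    gcongr
  have h2 : (12 * t) ^ 4 * b ^ 4 * (1 ^ 2 * e) / τ ^ 2 ≤ (12 * t) ^ 4 * W ^ 2 * e / τ ^ 2 := by
    rw [one_pow, one_mul]
    gcongr
  linarith

/-- norms of a function of height one and mass at most `W` -/
theorem norms_le {Q : Finset (ℤ × ℤ)} {f : ℤ × ℤ → ℝ} {W : ℝ} (h1 : ∀ p ∈ Q, f p ^ 2 ≤ 1)
    (hW : (avg Q fun p => f p ^ 2) ≤ W) : nN Q f ^ 8 ≤ W ^ 3 ∧ n2 Q f ^ 4 ≤ W ^ 2 := by
  have h2 := H922.n2_sq Q f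
  have h4 := H922.n4_four Q f
  have hn := H922.nN_sq Q f
  have h0 : 0 ≤ avg Q fun p => f p ^ 2 := H922.avg_sq_nonneg Q f
  have h4le : (avg Q fun p => f p ^ 4) ≤ avg Q fun p => f p ^ 2 := by
    refine H550.avg_mono fun p hp => ?_
    have := h1 p hp
    nlinarith [sq_nonneg (f p)]
  have h40 : 0 ≤ avg Q fun p => f p ^ 4 := H922.avg_four_nonneg Q f
  constructor
  · have e1 : nN Q f ^ 8 = (n2 Q f ^ 2) ^ 2 * n4 Q f ^ 4 := by
      rw [show nN Q f ^ 8 = (nN Q f ^ 2) ^ 4 by ring, hn]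
      ring
    rw [e1, h2, h4]
    calc (avg Q fun p => f p ^ 2) ^ 2 * (avg Q fun p => f p ^ 4)
        ≤ W ^ 2 * W := by gcongr; linarith
      _ = W ^ 3 := by ring
  · rw [show n2 Q f ^ 4 = (n2 Q f ^ 2) ^ 2 by ring, h2]
    exact pow_le_pow_left₀ h0 hW 2

variable {κ : Type*} [Fintype κ]

/-- on every square inside the root the family is zero or the slot times small vectors -/
structure SqD (K : ℕ) (R S : ℤ) (W : ℝ) (B : ℤ → ℕ → ℤ → ℤ → κ → ℝ) (G : ℕ → Pt → ℝ)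
    (w : ℤ → ℤ → κ → ℝ) : Prop where
  alt : ∀ k < K, ∀ n m : ℤ, ix (K - k) n = R → ix (K - k) m = S →
    (∀ x0, ∀ x ∈ iv k n, ∀ y ∈ iv k m, B x0 (k + 1) x y = 0) ∨
    ((∀ x0, ∀ x ∈ iv k n, ∀ y ∈ iv k m, B x0 (k + 1) x y = fun l => w x y l * G (k + 1) (x0, x, y)) ∧
      (∀ x ∈ iv k n, ∀ y ∈ iv k m, w x y ⬝ᵥ w x y ≤ 1) ∧
      ∑ x ∈ iv k n, ∑ y ∈ iv k m, w x y ⬝ᵥ w x y ≤ W * 4 ^ k)

/-- the high part of the family -/
def hiF (Q : ℤ → ℕ → ℤ → ℤ → Prop) (c : ℝ) (B : ℤ → ℕ → ℤ → ℤ → κ → ℝ) :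
    ℤ → ℕ → ℤ → ℤ → κ → ℝ := fun x0 k x y l => B x0 k x y l - lowF (Q x0) c (B x0) k x y l

/-- the low part of the family -/
def loF (Q : ℤ → ℕ → ℤ → ℤ → Prop) (c : ℝ) (B : ℤ → ℕ → ℤ → ℤ → κ → ℝ) :
    ℤ → ℕ → ℤ → ℤ → κ → ℝ := fun x0 => lowF (Q x0) c (B x0)

/-- own energy of a square -/
def og (k : ℕ) (b : ℤ → ℤ → κ → ℝ) (n m : ℤ) : ℝ := (GQ k b n m * GQ k b n m).trace

theorem og_nonneg (k : ℕ) (b : ℤ → ℤ → κ → ℝ) (n m : ℤ) : 0 ≤ og k b n m := by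
  unfold og
  rw [tr_GQ_sq]
  exact mul_nonneg (by positivity) (sum_nonneg fun _ _ => sum_nonneg fun _ _ => sq_nonneg _)

theorem og_congr {k : ℕ} {b b' : ℤ → ℤ → κ → ℝ} {n m : ℤ}
    (h : ∀ x ∈ iv k n, ∀ y ∈ iv k m, b x y = b' x y) : og k b n m = og k b' n m := by
  unfold og
  rw [tr_GQ_sq, tr_GQ_sq]
  congr 1
  refine sum_congr rfl fun y hy => sum_congr rfl fun y' hy' => ?_
  congr 1
  exact sum_congr rfl fun x hx => by rw [h x hx y hy, h x hx y' hy']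

theorem og_zero {k : ℕ} {b : ℤ → ℤ → κ → ℝ} {n m : ℤ}
    (h : ∀ x ∈ iv k n, ∀ y ∈ iv k m, b x y = 0) : og k b n m = 0 := by
  rw [og_congr (b' := fun _ _ => 0) h]
  unfold og
  rw [tr_GQ_sq]
  simp

theorem GQ_congr {k : ℕ} {b b' : ℤ → ℤ → κ → ℝ} {n m : ℤ}
    (h : ∀ x ∈ iv k n, ∀ y ∈ iv k m, b x y = b' x y) : GQ k b n m = GQ k b' n m :=
  H103.QW_congr _ h

/-- sum over the points of one square -/
theorem high_sq {K : ℕ} {R S : ℤ} {W t e τ : ℝ} {B : ℤ → ℕ → ℤ → ℤ → κ → ℝ} {G : ℕ → Pt → ℝ}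
    {w : ℤ → ℤ → κ → ℝ} {Q : ℤ → ℕ → ℤ → ℤ → Prop} (hτ : 0 < τ) (ht : 0 ≤ t) (he : 0 ≤ e)
    (hW : 0 ≤ W) (hG : SlG K t e G) (hB : SqD K R S W B G w) {k : ℕ} (hk : k < K) (q0 n m : ℤ)
    (hn : ix (K - k) n = R) (hm : ix (K - k) m = S) (hQ : ∀ x0 ∈ iv k q0, Q x0 k n m) :
    ∑ x0 ∈ iv k q0, og k (hiF Q (τ ^ 2) B x0 (k + 1)) n m ≤ 2 ^ k * bs t e τ W := by
  have hpos : 0 ≤ 2 ^ k * bs t e τ W := mul_nonneg (by positivity) (bs_nonneg ht he hτ hW)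
  rcases hB.alt k hk n m hn hm with h0 | ⟨h1, h2, h3⟩
  · refine le_trans (le_of_eq ?_) hpos
    refine sum_eq_zero fun x0 hx0 => ?_
    have hs := own_split (F := B x0) (c := τ ^ 2) (hQ x0 hx0)
    have hz : og k (B x0 (k + 1)) n m = 0 := og_zero fun x hx y hy => h0 x0 x hx y hy
    have hl := og_nonneg k (lowF (Q x0) (τ ^ 2) (B x0) (k + 1)) n m
    have hh := og_nonneg k (hiF Q (τ ^ 2) B x0 (k + 1)) n m
    have hs' : og k (lowF (Q x0) (τ ^ 2) (B x0) (k + 1)) n m + og k (hiF Q (τ ^ 2) B x0 (k + 1)) n m =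
        og k (B x0 (k + 1)) n m := hs
    linarith
  · have e1 : ∀ x0 ∈ iv k q0, og k (hiF Q (τ ^ 2) B x0 (k + 1)) n m =
        ∑ i, if τ ^ 2 < (GQ_psd k (B x0 (k + 1)) n m).1.eigenvalues i then
          (GQ_psd k (B x0 (k + 1)) n m).1.eigenvalues i ^ 2 else 0 := fun x0 hx0 =>
      own_high (F := B x0) (hQ x0 hx0)
    rw [sum_congr rfl e1]
    have h4 : ∀ x ∈ iv k n, ∀ y ∈ iv k m, ∑ l, (fun l x y => w x y l) l x y ^ 2 ≤ (1 : ℝ) ^ 2 := by
      intro x hx y hy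
      refine le_trans (le_of_eq ?_) ((h2 x hx y hy).trans (le_of_eq (one_pow 2).symm))
      rw [dotProduct]
      exact sum_congr rfl fun l _ => sq _
    have hun : ∀ p : ℤ × ℤ, un (fun l x y => w x y l) p ^ 2 = w p.1 p.2 ⬝ᵥ w p.1 p.2 := by
      intro p
      unfold H482.un
      rw [H204.vn_sq, dotProduct]
      exact sum_congr rfl fun l _ => sq _
    have hnm := norms_le (Q := iv k n ×ˢ iv k m) (f := un fun l x y => w x y l) (W := W)
      (fun p hp => by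
        rw [hun p]
        exact h2 p.1 (mem_product.1 hp).1 p.2 (mem_product.1 hp).2)
      (by
        simp only [hun]
        unfold avg
        rw [card_product, PL.card_iv, PL.card_iv, sum_product]
        push_cast
        have h44 : (4 : ℝ) ^ k = 2 ^ k * 2 ^ k := by rw [← mul_pow]; norm_num
        rw [inv_mul_le_iff₀ (by positivity), ← h44, mul_comm]
        exact h3)
    have hh := H482.cube_hi (k := k) (i0 := q0) (n := n) (m := m) (u := fun l x y => w x y l)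
      (G := G (k + 1)) (h := 1) hτ ht he (hG.uni k hk q0 n m) (hG.lin k hk q0 n m) h4
      (X := fun x0 => GQ k (B x0 (k + 1)) n m)
      (fun x0 => GQ_congr (h1 x0)) (fun x0 => (GQ_psd k (B x0 (k + 1)) n m).1)
    refine hh.trans ?_
    exact mul_le_mul_of_nonneg_left (bd_le_bs ht he hτ hnm.1 hnm.2) (by positivity)

/-- the square energy of one square, sum over the points -/
theorem pow_sq {K : ℕ} {R S : ℤ} {W t e : ℝ} {B : ℤ → ℕ → ℤ → ℤ → κ → ℝ} {G : ℕ → Pt → ℝ}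
    {w : ℤ → ℤ → κ → ℝ} (he : 0 ≤ e) (hW : 0 ≤ W) (hG : SlG K t e G)
    (hB : SqD K R S W B G w) {k : ℕ} (hk : k < K) (q0 n m : ℤ)
    (hn : ix (K - k) n = R) (hm : ix (K - k) m = S) :
    ∑ x0 ∈ iv k q0, ∑ x ∈ iv k n, ∑ y ∈ iv k m, B x0 (k + 1) x y ⬝ᵥ B x0 (k + 1) x y ≤
      8 ^ k * (e * W) := by
  have h8 : (8 : ℝ) ^ k = 2 ^ k * 4 ^ k := by rw [← mul_pow]; norm_num
  rcases hB.alt k hk n m hn hm with h0 | ⟨h1, h2, h3⟩
  · refine le_trans (le_of_eq ?_) (show (0 : ℝ) ≤ _ by positivity)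
    refine sum_eq_zero fun x0 _ => sum_eq_zero fun x hx => sum_eq_zero fun y hy => ?_
    rw [h0 x0 x hx y hy, zero_dotProduct]
  · have e1 : ∀ x0 ∈ iv k q0, ∀ x ∈ iv k n, ∀ y ∈ iv k m,
        B x0 (k + 1) x y ⬝ᵥ B x0 (k + 1) x y = (w x y ⬝ᵥ w x y) * G (k + 1) (x0, x, y) ^ 2 := by
      intro x0 _ x hx y hy
      rw [h1 x0 x hx y hy, dotProduct, dotProduct, sum_mul]
      exact sum_congr rfl fun l _ => by ring
    rw [sum_congr rfl fun x0 hx0 => sum_congr rfl fun x hx => sum_congr rfl fun y hy =>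
      e1 x0 hx0 x hx y hy]
    rw [sum_comm]
    have e2 : ∀ x ∈ iv k n, ∑ x0 ∈ iv k q0, ∑ y ∈ iv k m,
        (w x y ⬝ᵥ w x y) * G (k + 1) (x0, x, y) ^ 2 ≤
        ∑ y ∈ iv k m, (w x y ⬝ᵥ w x y) * (e * 2 ^ k) := by
      intro x hx
      rw [sum_comm]
      refine sum_le_sum fun y hy => ?_
      rw [← mul_sum]
      exact mul_le_mul_of_nonneg_left (hG.l0 k hk q0 x y)
        (by rw [dotProduct]; exact sum_nonneg fun _ _ => mul_self_nonneg _)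
    refine (sum_le_sum e2).trans ?_
    simp only [← sum_mul]
    calc (∑ x ∈ iv k n, ∑ y ∈ iv k m, w x y ⬝ᵥ w x y) * (e * 2 ^ k)
        ≤ W * 4 ^ k * (e * 2 ^ k) := by gcongr
      _ = 8 ^ k * (e * W) := by rw [h8]; ring

/-! ### Sum over the affected squares -/

/-- the packing of the root -/
def RootP (K : ℕ) (R S : ℤ) (c : ℝ) (Qc : ℕ → Pt → Prop) : Prop :=
  ∀ x0, ∑ k ∈ range K, ∑ m ∈ iv (K - k) S, ∑ n ∈ iv (K - k) R,
      (if Qc k (ix k x0, n, m) then (4 : ℝ) ^ k else 0) ≤ c * 4 ^ K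

/-- the affected squares at a point -/
def atQ (Qc : ℕ → Pt → Prop) (x0 : ℤ) (k : ℕ) (n m : ℤ) : Prop := Qc k (ix k x0, n, m)

/-- **sum over the points of a sum over the affected squares** -/
theorem aff_sum {K : ℕ} {t0 R S : ℤ} {c μ : ℝ} {Qc : ℕ → Pt → Prop} (hμ : 0 ≤ μ)
    {T : ℤ → ℕ → ℤ → ℤ → ℝ}
    (hT : ∀ k < K, ∀ q0 n m, ix (K - k) n = R → ix (K - k) m = S →
      (∀ x0 ∈ iv k q0, atQ Qc x0 k n m) → ∑ x0 ∈ iv k q0, T x0 k n m ≤ 8 ^ k * μ)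
    (hP : RootP K R S c Qc) :
    ∑ x0 ∈ iv K t0, ∑ i ∈ Aff K R S (atQ Qc x0), T x0 i.1 i.2.1 i.2.2 ≤ c * μ * 8 ^ K := by
  have e1 : ∀ x0 ∈ iv K t0, ∑ i ∈ Aff K R S (atQ Qc x0), T x0 i.1 i.2.1 i.2.2 =
      ∑ k ∈ range K, ∑ m ∈ iv (K - k) S, ∑ n ∈ iv (K - k) R,
        (if Qc k (ix k x0, n, m) then
          (if ix (K - k) n = R ∧ ix (K - k) m = S ∧ Qc k (ix k x0, n, m) then T x0 k n m
            else 0) else 0) := by
    intro x0 _
    rw [sum_Aff K R S (atQ Qc x0) fun i => T x0 i.1 i.2.1 i.2.2]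
    refine sum_congr rfl fun k _ => sum_congr rfl fun m hm => sum_congr rfl fun n hn => ?_
    unfold atQ
    by_cases h : Qc k (ix k x0, n, m)
    · rw [if_pos h, if_pos h, if_pos ⟨mem_iv.1 hn, mem_iv.1 hm, h⟩]
    · rw [if_neg h, if_neg h]
  rw [sum_congr rfl e1]
  refine H769.slice_sum (K := K) (t0 := t0) (R := R) (S := S) (c := c) (μ := μ) (Q := Qc)
    (T := fun x0 k n m => if ix (K - k) n = R ∧ ix (K - k) m = S ∧ Qc k (ix k x0, n, m) then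
      T x0 k n m else 0) hμ ?_ hP
  intro k hk q0 n m
  by_cases hh : ix (K - k) n = R ∧ ix (K - k) m = S ∧ Qc k (q0, n, m)
  · have e2 : ∀ x0 ∈ iv k q0, (if ix (K - k) n = R ∧ ix (K - k) m = S ∧ Qc k (ix k x0, n, m) then
        T x0 k n m else 0) = T x0 k n m := by
      intro x0 hx0
      rw [mem_iv.1 hx0, if_pos hh]
    rw [sum_congr rfl e2]
    refine hT k hk q0 n m hh.1 hh.2.1 fun x0 hx0 => ?_
    unfold atQ
    rw [mem_iv.1 hx0]
    exact hh.2.2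
  · have e2 : ∀ x0 ∈ iv k q0, (if ix (K - k) n = R ∧ ix (K - k) m = S ∧ Qc k (ix k x0, n, m) then
        T x0 k n m else 0) = 0 := by
      intro x0 hx0
      rw [mem_iv.1 hx0, if_neg hh]
    rw [sum_congr rfl e2, sum_const_zero]
    positivity

variable {K : ℕ} {R S t0 : ℤ} {W t e τ c cP : ℝ} {B : ℤ → ℕ → ℤ → ℤ → κ → ℝ} {G : ℕ → Pt → ℝ}
  {w : ℤ → ℤ → κ → ℝ} {Qc : ℕ → Pt → Prop}

/-- **The own energies of the high parts.** -/
theorem own_high_sum (hτ : 0 < τ) (ht : 0 ≤ t) (he : 0 ≤ e) (hW : 0 ≤ W) (hG : SlG K t e G)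
    (hB : SqD K R S W B G w) (hP : RootP K R S cP Qc) :
    ∑ x0 ∈ iv K t0, ownK K R S (atQ Qc x0) (hiF (atQ Qc) (τ ^ 2) B x0) ≤
      cP * bs t e τ W * 8 ^ K := by
  refine aff_sum (T := fun x0 k n m => 4 ^ k * og k (hiF (atQ Qc) (τ ^ 2) B x0 (k + 1)) n m)
    (bs_nonneg ht he hτ hW) (fun k hk q0 n m hn hm hQ => ?_) hP
  have h8 : (8 : ℝ) ^ k = 4 ^ k * 2 ^ k := by rw [← mul_pow]; norm_num
  rw [← mul_sum, h8, mul_assoc]
  exact mul_le_mul_of_nonneg_left (high_sq hτ ht he hW hG hB hk q0 n m hn hm hQ) (by positivity)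

/-- **The square energies.** -/
theorem pow_sum (he : 0 ≤ e) (hW : 0 ≤ W) (hG : SlG K t e G)
    (hB : SqD K R S W B G w) (hP : RootP K R S cP Qc) :
    ∑ x0 ∈ iv K t0, pwrK K R S (atQ Qc x0) (B x0) ≤ cP * (e * W) * 8 ^ K :=
  aff_sum (T := fun x0 k n m => ∑ x ∈ iv k n, ∑ y ∈ iv k m, B x0 (k + 1) x y ⬝ᵥ B x0 (k + 1) x y)
    (by positivity) (fun _ hk q0 n m hn hm _ => pow_sq he hW hG hB hk q0 n m hn hm) hP

/-! ### Low and high parts at one point -/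

variable {Q : ℕ → ℤ → ℤ → Prop} {F : ℕ → ℤ → ℤ → κ → ℝ} {N : ℕ}

theorem tr_GQ (k : ℕ) (b : ℤ → ℤ → κ → ℝ) (n m : ℤ) :
    ∑ x ∈ iv k n, ∑ y ∈ iv k m, b x y ⬝ᵥ b x y = 4 ^ k * (GQ k b n m).trace := by
  have h4 : (4 : ℝ) ^ k = 2 ^ k * 2 ^ k := by rw [← mul_pow]; norm_num
  rw [Matrix.trace]
  have e1 : ∀ j : Ix k, (GQ k b n m).diag j = ((2 : ℝ) ^ k * 2 ^ k)⁻¹ *
      ∑ x ∈ iv k n, b x (2 ^ k * m + val k j) ⬝ᵥ b x (2 ^ k * m + val k j) := by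
    intro j
    rw [Matrix.diag_apply]
    unfold GQ H103.QW
    congr 1
    refine sum_congr rfl fun x _ => ?_
    rw [one_mulVec]
  simp only [e1]
  rw [← mul_sum, h4, mul_inv_cancel_left₀ (by positivity), sum_comm, PL.H588.sum_iv]

theorem ownK_split (N : ℕ) (R S : ℤ) (c : ℝ) :
    ownK N R S Q (lowF Q c F) + ownK N R S Q (fun k x y l => F k x y l - lowF Q c F k x y l) =
      ownK N R S Q F := by
  unfold ownK
  rw [← sum_add_distrib]
  refine sum_congr rfl fun i hi => ?_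
  rw [← mul_add, own_split (mem_Aff.1 hi).2.2.2]

theorem pwrK_split (N : ℕ) (R S : ℤ) (c : ℝ) :
    pwrK N R S Q (lowF Q c F) + pwrK N R S Q (fun k x y l => F k x y l - lowF Q c F k x y l) =
      pwrK N R S Q F := by
  unfold pwrK
  rw [← sum_add_distrib]
  refine sum_congr rfl fun i hi => ?_
  rw [tr_GQ, tr_GQ, tr_GQ, ← mul_add, en_split (mem_Aff.1 hi).2.2.2]

theorem ownK_nonneg (N : ℕ) (R S : ℤ) (Q : ℕ → ℤ → ℤ → Prop) (F : ℕ → ℤ → ℤ → κ → ℝ) :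
    0 ≤ ownK N R S Q F :=
  sum_nonneg fun i _ => mul_nonneg (by positivity) (og_nonneg i.1 (F (i.1 + 1)) i.2.1 i.2.2)

theorem pwrK_nonneg (N : ℕ) (R S : ℤ) (Q : ℕ → ℤ → ℤ → Prop) (F : ℕ → ℤ → ℤ → κ → ℝ) :
    0 ≤ pwrK N R S Q F :=
  sum_nonneg fun _ _ => sum_nonneg fun _ _ => sum_nonneg fun _ _ => by
    rw [dotProduct]; exact sum_nonneg fun _ _ => mul_self_nonneg _

theorem ownK_low_le (N : ℕ) (R S : ℤ) (c : ℝ) :
    ownK N R S Q (lowF Q c F) ≤ ownK N R S Q F := by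
  have h := ownK_split (Q := Q) (F := F) N R S c
  have h2 := ownK_nonneg N R S Q (fun k x y l => F k x y l - lowF Q c F k x y l)
  linarith

theorem pwrK_low_le (N : ℕ) (R S : ℤ) (c : ℝ) :
    pwrK N R S Q (lowF Q c F) ≤ pwrK N R S Q F := by
  have h := pwrK_split (Q := Q) (F := F) N R S c
  have h2 := pwrK_nonneg N R S Q (fun k x y l => F k x y l - lowF Q c F k x y l)
  linarith

theorem pwrK_high_le (N : ℕ) (R S : ℤ) (c : ℝ) :
    pwrK N R S Q (fun k x y l => F k x y l - lowF Q c F k x y l) ≤ pwrK N R S Q F := by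
  have h := pwrK_split (Q := Q) (F := F) N R S c
  have h2 := pwrK_nonneg N R S Q (lowF Q c F)
  linarith

/-- own energy of the low part of a square -/
theorem og_low_le {k : ℕ} {n m : ℤ} {c : ℝ} (hc : 0 ≤ c) (hQ : Q k n m) :
    og k (lowF Q c F (k + 1)) n m ≤ c * (GQ k (F (k + 1)) n m).trace := by
  have e0 : og k (lowF Q c F (k + 1)) n m =
      (lowP (GQ_psd k (F (k + 1)) n m).1 c * GQ k (F (k + 1)) n m *
        lowP (GQ_psd k (F (k + 1)) n m).1 c * (lowP (GQ_psd k (F (k + 1)) n m).1 c *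
        GQ k (F (k + 1)) n m * lowP (GQ_psd k (F (k + 1)) n m).1 c)).trace := by
    unfold og GQ
    rw [QW_low hQ]
    rfl
  have e1 : (GQ k (F (k + 1)) n m).trace =
      (spf (GQ_psd k (F (k + 1)) n m).1 fun s => s).trace := by rw [spf_id]
  rw [e0, low_mul, spf_mul, spf_trace, e1, spf_trace, mul_sum]
  refine sum_le_sum fun i _ => ?_
  have h0 := (GQ_psd k (F (k + 1)) n m).eigenvalues_nonneg i
  split_ifs with hi
  · exact mul_le_mul_of_nonneg_right hi h0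
  · rw [mul_zero]
    exact mul_nonneg hc h0

/-- **the own energy of the low part** -/
theorem ownK_low_cap (N : ℕ) (R S : ℤ) {c : ℝ} (hc : 0 ≤ c) :
    ownK N R S Q (lowF Q c F) ≤ c * pwrK N R S Q F := by
  unfold ownK pwrK
  rw [mul_sum]
  refine sum_le_sum fun i hi => ?_
  rw [tr_GQ, mul_left_comm]
  exact mul_le_mul_of_nonneg_left (og_low_le hc (mem_Aff.1 hi).2.2.2) (by positivity)

/-- **The own energies of the family**, cut at any level. -/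
theorem own_sum (hτ : 0 < τ) (ht : 0 ≤ t) (he : 0 ≤ e) (hW : 0 ≤ W) (hG : SlG K t e G)
    (hB : SqD K R S W B G w) (hP : RootP K R S cP Qc) :
    ∑ x0 ∈ iv K t0, ownK K R S (atQ Qc x0) (B x0) ≤
      cP * (τ ^ 2 * (e * W) + bs t e τ W) * 8 ^ K := by
  have h1 := own_high_sum (t0 := t0) hτ ht he hW hG hB hP
  have h2 := pow_sum (t0 := t0) he hW hG hB hP
  have h3 : ∑ x0 ∈ iv K t0, ownK K R S (atQ Qc x0) (lowF (atQ Qc x0) (τ ^ 2) (B x0)) ≤
      τ ^ 2 * (cP * (e * W) * 8 ^ K) := by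
    refine (sum_le_sum fun x0 _ => ownK_low_cap (F := B x0) K R S (sq_nonneg τ)).trans ?_
    rw [← mul_sum]
    exact mul_le_mul_of_nonneg_left h2 (sq_nonneg _)
  have h4 : ∑ x0 ∈ iv K t0, ownK K R S (atQ Qc x0) (B x0) =
      ∑ x0 ∈ iv K t0, ownK K R S (atQ Qc x0) (lowF (atQ Qc x0) (τ ^ 2) (B x0)) +
        ∑ x0 ∈ iv K t0, ownK K R S (atQ Qc x0) (hiF (atQ Qc) (τ ^ 2) B x0) := by
    rw [← sum_add_distrib]
    exact sum_congr rfl fun x0 _ => (ownK_split K R S (τ ^ 2)).symm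
  rw [h4]
  calc _ ≤ τ ^ 2 * (cP * (e * W) * 8 ^ K) + cP * bs t e τ W * 8 ^ K := add_le_add h3 h1
    _ = _ := by ring

/-! ### The families -/

variable {c' : ℝ}

/-- path data of a family -/
structure PthK (N : ℕ) (R S : ℤ) (Q : ℤ → ℕ → ℤ → ℤ → Prop)
    (F : ℤ → ℕ → ℤ → ℤ → κ → ℝ) (cP : ℝ) : Prop where
  path : ∀ i, ∀ l, Path N R S (Q i) (fun k x y => F i k x y l)
  zero : ∀ i, F i 0 = 0
  pack : ∀ i, PackQ N R S (Q i) cP

/-- **The family.** -/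
theorem fam_full (hτ : 0 < τ) (ht : 0 ≤ t) (he : 0 ≤ e) (hW : 0 ≤ W) (hG : SlG K t e G)
    (hB : SqD K R S W B G w) (hP : RootP K R S cP Qc) (hF : PthK K R S (atQ Qc) B cP) :
    FamK K R S (iv K t0) (atQ Qc) B cP (cP * (τ ^ 2 * (e * W) + bs t e τ W) * 8 ^ K)
      (cP * (e * W) * 8 ^ K) where
  path := fun i _ => hF.path i
  zero := fun i _ => hF.zero i
  pack := fun i _ => hF.pack i
  own := own_sum hτ ht he hW hG hB hP
  pow := pow_sum he hW hG hB hP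

/-- **The low part.** -/
theorem fam_lo (hτ : 0 < τ) (ht : 0 ≤ t) (he : 0 ≤ e) (hW : 0 ≤ W) (hG : SlG K t e G)
    (hB : SqD K R S W B G w) (hP : RootP K R S cP Qc) (hF : PthK K R S (atQ Qc) B cP) :
    FamK K R S (iv K t0) (atQ Qc) (loF (atQ Qc) c B) cP
      (cP * (τ ^ 2 * (e * W) + bs t e τ W) * 8 ^ K) (cP * (e * W) * 8 ^ K) where
  path := fun _ _ l => lowF_path K R S l
  zero := fun _ _ => rfl
  pack := fun i _ => hF.pack i
  own := (sum_le_sum fun _ _ => ownK_low_le K R S c).trans (own_sum hτ ht he hW hG hB hP)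
  pow := (sum_le_sum fun _ _ => pwrK_low_le K R S c).trans (pow_sum he hW hG hB hP)

/-- **The high part.** -/
theorem fam_hi (hτ : 0 < τ) (ht : 0 ≤ t) (he : 0 ≤ e) (hW : 0 ≤ W) (hG : SlG K t e G)
    (hB : SqD K R S W B G w) (hP : RootP K R S cP Qc) (hF : PthK K R S (atQ Qc) B cP) :
    FamK K R S (iv K t0) (atQ Qc) (hiF (atQ Qc) (τ ^ 2) B) cP
      (cP * bs t e τ W * 8 ^ K) (cP * (e * W) * 8 ^ K) where
  path := fun i _ l => highF_path (hF.path i l)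
  zero := fun i _ => by
    funext x y l
    show B i 0 x y l - lowF (atQ Qc i) (τ ^ 2) (B i) 0 x y l = 0
    rw [hF.zero i, lowF_zero]
    simp
  pack := fun i _ => hF.pack i
  own := own_high_sum hτ ht he hW hG hB hP
  pow := (sum_le_sum fun _ _ => pwrK_high_le K R S _).trans (pow_sum he hW hG hB hP)

end

end Vale.Agent.P141.H205
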