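import Vale.Agent.P141.H205.HNum
import Vale.Agent.P141.H508.OwnC
import Vale.Agent.P141.H401.CutData

/-!
# P141, line (A): the families `A` and `b`, their low and high parts, in the letters of `H401`

`famA_full`, `famA_lo`, `famA_hi`, `famB_full`, `famB_lo`, `famB_hi` : data for `NS_nf3_le`.
-/

namespace Vale.Agent.P141.H205

open Finset Matrix
open Vale.Agent.P075 (Ix val)
open Vale.Agent.P141.PL (Pt iv hs ix mem_iv ix_ix tri cx)
open Vale.Agent.P141.PL.H315 (avg avg_nonneg A2)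
open Vale.Agent.P141.H736 (Path sqb sqQ)
open Vale.Agent.P141.H958 (Aff s4 pwr mem_Aff sum_Aff PackQ lbs fl)
open Vale.Agent.P141.H48 (own4 BSl BUn US sst Qth pth)
open Vale.Agent.P141.H834 (UnifP LineB)
open Vale.Agent.P141.H677 (kF fA fb fC)
open Vale.Agent.P141.H971 (Fam0)
open Vale.Agent.P141.H103 (un)
open Vale.Agent.P141.H769 (Qcb sst_congr ix_of_le corner)
open Vale.Agent.P141.H508 (root_mem)
open Vale.Agent.P141.H401

noncomputable section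

open scoped Classical

variable {κ : Type*} [Fintype κ]

/-! ### Masses on the squares -/

variable {Λ : ℝ} {a : ℤ × ℤ → ℝ} {K : ℕ} {F : ℕ → Pt → ℝ}

/-- the corner of a square inside the root -/
theorem root_corner {k : ℕ} (hk : k ≤ K) {n X : ℤ} (hX : ix (K - k) n = ix K X) :
    ix K (2 ^ k * n) = ix K X := by
  rw [← hX, ← Nat.add_sub_cancel' hk, ← ix_ix, H769.ix_two_pow_mul, Nat.add_sub_cancel_left]

theorem mass_sq {k : ℕ} (hk : k < K) {n m X Y : ℤ} (hX : ix (K - k) n = ix K X)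
    (hY : ix (K - k) m = ix K Y) (hst : ¬ sst Λ a K (k + 1) (2 ^ k * n) (2 ^ k * m)) :
    ∑ x ∈ iv k n, ∑ y ∈ iv k m, a (x, y) ^ 2 ≤ 4 * (Λ * A2 K a X Y) * 4 ^ k := by
  have e3 : ∑ x ∈ iv k n, ∑ y ∈ iv k m, a (x, y) ^ 2 =
      4 ^ k * A2 k a (2 ^ k * n) (2 ^ k * m) := by
    unfold PL.H315.A2 avg
    rw [← H769.iv_ix, ← H769.iv_ix, card_product, PL.card_iv, PL.card_iv, sum_product]
    push_cast
    have h4 : (4 : ℝ) ^ k = 2 ^ k * 2 ^ k := by rw [← mul_pow]; norm_num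
    rw [h4, ← mul_assoc, mul_inv_cancel₀ (by positivity), one_mul]
  obtain ⟨h2, _⟩ := H769.not_sst_le hk hst
  have e4 : A2 K a (2 ^ k * n) (2 ^ k * m) = A2 K a X Y := by
    unfold PL.H315.A2
    rw [H769.ptiv_congr (root_corner hk.le hX), H769.ptiv_congr (root_corner hk.le hY)]
  rw [e4] at h2
  rw [e3, mul_comm]
  exact mul_le_mul_of_nonneg_right h2 (by positivity)

/-- **the squares of `b`** -/
theorem sqD_b {u : ℤ → ℤ → κ → ℝ} {X Y : ℤ} {s : ℝ} (hΛ : 0 ≤ Λ)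
    (ha : ∀ x ∈ iv K (ix K X), ∀ y ∈ iv K (ix K Y), 0 ≤ a (x, y) ∧ a (x, y) ≤ 1 ∧
      u x y ⬝ᵥ u x y ≤ a (x, y) ^ 2) (hs : A2 K a X Y ≤ s) :
    SqD K (ix K X) (ix K Y) (4 * (Λ * s)) (fb u (kF Λ a K F)) F u := by
  refine ⟨fun k hk n m hn hm => ?_⟩
  by_cases hst : sst Λ a K (k + 1) (2 ^ k * n) (2 ^ k * m)
  · left
    intro x0 x hx y hy
    unfold fb kF
    simp only
    rw [if_pos (Or.inr ((sst_congr (ix_of_le (Nat.le_succ k) (corner k hx))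
      (ix_of_le (Nat.le_succ k) (corner k hy))).2 hst)), zero_smul]
  · right
    have hx1 : ∀ x ∈ iv k n, x ∈ iv K (ix K X) := fun x hx =>
      root_mem hk.le (mem_iv.2 hn) hx
    have hy1 : ∀ y ∈ iv k m, y ∈ iv K (ix K Y) := fun y hy =>
      root_mem hk.le (mem_iv.2 hm) hy
    refine ⟨?_, ?_, ?_⟩
    · intro x0 x hx y hy
      unfold fb kF
      simp only
      rw [if_neg]
      · funext l
        rw [Pi.smul_apply, smul_eq_mul, mul_comm]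
      · push Not
        refine ⟨by omega, fun h => hst ?_⟩
        exact (sst_congr (ix_of_le (Nat.le_succ k) (corner k hx))
          (ix_of_le (Nat.le_succ k) (corner k hy))).1 h
    · intro x hx y hy
      obtain ⟨h0, h1, h2⟩ := ha x (hx1 x hx) y (hy1 y hy)
      exact h2.trans (by nlinarith)
    · refine (sum_le_sum fun x hx => sum_le_sum fun y hy =>
        (ha x (hx1 x hx) y (hy1 y hy)).2.2).trans ?_
      refine (mass_sq hk hn hm hst).trans ?_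
      have : Λ * A2 K a X Y ≤ Λ * s := mul_le_mul_of_nonneg_left hs hΛ
      have h4 : (0 : ℝ) ≤ 4 ^ k := by positivity
      nlinarith

/-- **the squares of `A`** -/
theorem sqD_A {Y Z : ℤ} {s : ℝ} (hΛ : 0 ≤ Λ)
    (ha : ∀ y ∈ iv K (ix K Y), ∀ z ∈ iv K (ix K Z), |a (y, z)| ≤ 1) (hs : A2 K a Y Z ≤ s) :
    SqD K (ix K Z) (ix K Y) (4 * (Λ * s)) (fun x0 k => un (fA a (kF Λ a K F) x0 k))
      (fun k q => F k (q.1, q.2.2, q.2.1)) (fun z y _ => a (y, z)) := by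
  refine ⟨fun k hk n m hn hm => ?_⟩
  by_cases hst : sst Λ a K (k + 1) (2 ^ k * m) (2 ^ k * n)
  · left
    intro x0 z hz y hy
    funext l
    show a (y, z) * kF Λ a K F (k + 1) (x0, y, z) = 0
    unfold kF
    simp only
    rw [if_pos (Or.inr ((sst_congr (ix_of_le (Nat.le_succ k) (corner k hy))
      (ix_of_le (Nat.le_succ k) (corner k hz))).2 hst)), mul_zero]
  · right
    have hz1 : ∀ z ∈ iv k n, z ∈ iv K (ix K Z) := fun x hx =>
      root_mem hk.le (mem_iv.2 hn) hx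
    have hy1 : ∀ y ∈ iv k m, y ∈ iv K (ix K Y) := fun y hy =>
      root_mem hk.le (mem_iv.2 hm) hy
    have hdot : ∀ z y : ℤ, ((fun _ : Unit => a (y, z)) ⬝ᵥ fun _ : Unit => a (y, z)) =
        a (y, z) ^ 2 := by
      intro z y
      rw [dotProduct]
      simp [sq]
    refine ⟨?_, ?_, ?_⟩
    · intro x0 z hz y hy
      funext l
      show a (y, z) * kF Λ a K F (k + 1) (x0, y, z) = a (y, z) * F (k + 1) (x0, y, z)
      unfold kF
      simp only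
      rw [if_neg]
      push Not
      refine ⟨by omega, fun h => hst ?_⟩
      exact (sst_congr (ix_of_le (Nat.le_succ k) (corner k hy))
        (ix_of_le (Nat.le_succ k) (corner k hz))).1 h
    · intro z hz y hy
      rw [hdot]
      have h1 := ha y (hy1 y hy) z (hz1 z hz)
      rw [← sq_abs]
      exact pow_le_one₀ (abs_nonneg _) h1
    · simp only [hdot]
      rw [sum_comm]
      refine (mass_sq hk hm hn hst).trans ?_
      have : Λ * A2 K a Y Z ≤ Λ * s := mul_le_mul_of_nonneg_left hs hΛ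
      have h4 : (0 : ℝ) ≤ 4 ^ k := by positivity
      nlinarith

/-! ### Packing and paths -/

variable {n : ℕ} {e cP : ℝ} {Q : ℕ → Pt → Prop}

theorem rootP_b (hB : BSl n e cP F Q) (hK : K ≤ n) (R S : ℤ) :
    RootP K R S (cP + 2) (Qcb Λ a K Q) := fun x0 => H769.root_pack hB a hK R S x0

theorem rootP_A (hB : BSl n e cP F Q) (hK : K ≤ n) (R S : ℤ) :
    RootP K R S (cP + 2) (fun k q => Qcb Λ a K Q k (q.1, q.2.2, q.2.1)) := by
  intro x0
  refine (le_of_eq ?_).trans (H769.root_pack (Λ := Λ) hB a hK S R x0)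
  refine sum_congr rfl fun k _ => ?_
  rw [sum_comm]
  rfl

theorem pthK_b {u : ℤ → ℤ → κ → ℝ} (hcP : 0 ≤ cP) (hB : BSl n e cP F Q) (hK : K ≤ n) {X Y : ℤ}
    (ha : ∀ x ∈ iv K (ix K X), ∀ y ∈ iv K (ix K Y), 0 ≤ a (x, y) ∧ a (x, y) ≤ 1 ∧
      u x y ⬝ᵥ u x y ≤ a (x, y) ^ 2) :
    PthK K (ix K X) (ix K Y) (atQ (Qcb Λ a K Q)) (fb u (kF Λ a K F)) (cP + 2) where
  path := fun x0 l => H508.path_C (v := u) hcP hB hK
    (fun x hx z hz => ⟨(ha x hx z hz).1, (ha x hx z hz).2.2⟩) x0 l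
  zero := fun x0 => by
    funext x y l
    show kF Λ a K F 0 (x0, x, y) * u x y l = 0
    unfold kF
    rw [if_pos (Or.inl rfl), zero_mul]
  pack := fun x0 => (H769.pthSt Λ n e cP F Q hcP hB K hK a X Y x0).2.2

theorem pthK_A (hcP : 0 ≤ cP) (hB : BSl n e cP F Q) (hK : K ≤ n) {Y Z : ℤ} :
    PthK K (ix K Z) (ix K Y) (atQ fun k q => Qcb Λ a K Q k (q.1, q.2.2, q.2.1))
      (fun x0 k => un (fA a (kF Λ a K F) x0 k)) (cP + 2) where
  path := fun x0 l => by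
    intro k hk n hn m hm hq z hz y hy
    have h := (H769.pthSt Λ _ e cP F Q hcP hB K hK a Y Z x0).1 k hk m hm n hn hq y hy z hz
    rw [H508.pth_kF, H508.pth_kF] at h
    exact h
  zero := fun x0 => by
    funext z y l
    show a (y, z) * kF Λ a K F 0 (x0, y, z) = 0
    unfold kF
    rw [if_pos (Or.inl rfl), mul_zero]
  pack := fun x0 => packQ_fl (H769.pthSt Λ n e cP F Q hcP hB K hK a Y Z x0).2.2

/-! ### Scalar families -/

theorem own4_un (N : ℕ) (R S : ℤ) (Q : ℕ → ℤ → ℤ → Prop) (A : ℕ → ℤ → ℤ → ℝ) :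
    own4 N R S Q A = ownK N R S Q fun k => un (A k) := by
  unfold own4 ownK
  exact sum_congr rfl fun i _ => by rw [s4_un]

theorem pwr_un (N : ℕ) (R S : ℤ) (Q : ℕ → ℤ → ℤ → Prop) (A : ℕ → ℤ → ℤ → ℝ) :
    pwr N R S Q A = pwrK N R S Q fun k => un (A k) := by
  unfold pwrK
  rw [sum_Aff]
  unfold pwr sqQ
  refine sum_congr rfl fun k _ => sum_congr rfl fun m _ => sum_congr rfl fun n _ => ?_
  split_ifs with h
  · unfold H736.sqb
    rw [sum_comm]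
    refine sum_congr rfl fun x _ => sum_congr rfl fun y _ => ?_
    rw [dotProduct]
    simp [un, sq]
  · rfl

/-- **A scalar family.** -/
theorem FamK.to0 {N : ℕ} {R S : ℤ} {X : Finset ℤ} {Q : ℤ → ℕ → ℤ → ℤ → Prop}
    {A : ℤ → ℕ → ℤ → ℤ → ℝ} {cP G D : ℝ} (h : FamK N R S X Q (fun i k => un (A i k)) cP G D) :
    Fam0 N R S X Q A cP G D where
  path := fun i hi => h.path i hi ()
  zero := fun i hi => by
    funext x y
    exact congrFun (congrFun (congrFun (h.zero i hi) x) y) ()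
  pack := h.pack
  own := (sum_congr rfl fun i _ => own4_un N R S (Q i) (A i)).trans_le h.own
  pow := (sum_congr rfl fun i _ => pwr_un N R S (Q i) (A i)).trans_le h.pow

theorem FamK.mono {N : ℕ} {R S : ℤ} {X : Finset ℤ} {Q : ℤ → ℕ → ℤ → ℤ → Prop}
    {B : ℤ → ℕ → ℤ → ℤ → κ → ℝ} {cP G D G' D' : ℝ} (h : FamK N R S X Q B cP G D) (hG : G ≤ G')
    (hD : D ≤ D') : FamK N R S X Q B cP G' D' :=
  { h with own := h.own.trans hG, pow := h.pow.trans hD }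

omit [Fintype κ] in
theorem fam0_mono {N : ℕ} {R S : ℤ} {X : Finset ℤ} {Q : ℤ → ℕ → ℤ → ℤ → Prop}
    {A : ℤ → ℕ → ℤ → ℤ → ℝ} {cP G D G' D' : ℝ} (h : Fam0 N R S X Q A cP G D) (hG : G ≤ G')
    (hD : D ≤ D') : Fam0 N R S X Q A cP G' D' :=
  { h with own := h.own.trans hG, pow := h.pow.trans hD }

/-! ### The families of `H401` -/

section fams

variable {ι : Type} [Fintype ι] {p : H401.Num} {U : PL.H315.Tri} {x : Pt} {s r P tt τ : ℝ}
  {g : ℤ → ℤ → ℝ} {u v : ℤ → ℤ → ι → ℝ}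

/-- the mass -/
def mW (p : H401.Num) (s : ℝ) : ℝ := 4 * (p.Lm * s)

theorem mW_nonneg (hΛ : 0 ≤ p.Lm) (hs : 0 ≤ s) : 0 ≤ 4 * (p.Lm * s) := by positivity

/-- own energy of the natural families -/
def gN (p : H401.Num) (s tt e cP τ : ℝ) (K : ℕ) : ℝ :=
  (cP + 2) * (τ ^ 2 * (e * mW p s) + bs tt e τ (mW p s)) * 8 ^ K

/-- own energy of the high parts -/
def gH (p : H401.Num) (s tt e cP τ : ℝ) (K : ℕ) : ℝ := (cP + 2) * bs tt e τ (mW p s) * 8 ^ K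

/-- square energy -/
def gD (p : H401.Num) (s e cP : ℝ) (K : ℕ) : ℝ := (cP + 2) * (e * mW p s) * 8 ^ K

theorem gauge_eq (hc : H305.Cls K x s r P U g u v) : U.2.2 = fun q => g q.1 q.2 :=
  funext hc.U_g

theorem mA_eq (hc : H305.Cls K x s r P U g u v) (p : H401.Num) (F1 : ℕ → Pt → ℝ) :
    mA p U K g F1 = fA U.2.2 (kF p.Lm U.2.2 K F1) := by
  unfold mA
  rw [← gauge_eq hc]

theorem haA (hc : H305.Cls K x s r P U g u v) :
    ∀ y ∈ iv K (ix K x.2.1), ∀ z ∈ iv K (ix K x.2.2), |U.2.2 (y, z)| ≤ 1 := by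
  intro y hy z hz
  rw [hc.U_g]
  exact hc.g_le y hy z hz

theorem hab (hc : H305.Cls K x s r P U g u v) :
    ∀ z ∈ iv K (ix K x.1), ∀ y ∈ iv K (ix K x.2.1), 0 ≤ U.1 (z, y) ∧ U.1 (z, y) ≤ 1 ∧
      u z y ⬝ᵥ u z y ≤ U.1 (z, y) ^ 2 :=
  fun z hz y hy => ⟨(hc.U_u z hz y hy).1, (hc.U_u z hz y hy).2, hc.u_le z hz y hy⟩

variable {F1 F3 : ℕ → Pt → ℝ} {Q1 Q3 : ℕ → Pt → Prop}

/-- **The family `A`.** -/
theorem famA_full (hΛ : 0 ≤ p.Lm) (hs : 0 ≤ s) (hτ : 0 < τ) (ht : 0 ≤ tt) (he : 0 ≤ e)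
    (hcP : 0 ≤ cP) (hc : H305.Cls K x s r P U g u v) (hU : BUn n tt F1)
    (hB : BSl n e cP F1 Q1) (hK : K ≤ n) (T : ℤ) :
    Fam0 K (cx K x).2.2 (cx K x).2.1 (iv K T) (fun x0 k n m => qA p U K Q1 k (ix k x0) n m)
      (mA p U K g F1) (cP + 2) (gN p s tt e cP τ K) (gD p s e cP K) := by
  rw [mA_eq hc]
  exact (fam_full hτ ht he (mW_nonneg hΛ hs) ((slG_of hB hU).mono hK).sw
    (sqD_A (Y := x.2.1) (Z := x.2.2) hΛ (haA hc) hc.U_g2) (rootP_A hB hK _ _)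
    (pthK_A hcP hB hK)).to0

/-- **The low part of `A`.** -/
theorem famA_lo (hΛ : 0 ≤ p.Lm) (hs : 0 ≤ s) (hτ : 0 < τ) (ht : 0 ≤ tt) (he : 0 ≤ e)
    (hcP : 0 ≤ cP) (hc : H305.Cls K x s r P U g u v) (hU : BUn n tt F1)
    (hB : BSl n e cP F1 Q1) (hK : K ≤ n) (T : ℤ) :
    Fam0 K (cx K x).2.2 (cx K x).2.1 (iv K T) (fun x0 k n m => qA p U K Q1 k (ix k x0) n m)
      (cA p s r U K g F1 Q1) (cP + 2) (gN p s tt e cP τ K) (gD p s e cP K) := by
  unfold cA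
  rw [mA_eq hc]
  exact (fam_lo (c := p.th s r ^ 2) hτ ht he (mW_nonneg hΛ hs)
    ((slG_of hB hU).mono hK).sw
    (sqD_A (Y := x.2.1) (Z := x.2.2) hΛ (haA hc) hc.U_g2) (rootP_A hB hK _ _)
    (pthK_A hcP hB hK)).to0

/-- **The high part of `A`.** -/
theorem famA_hi (hΛ : 0 ≤ p.Lm) (hs : 0 ≤ s) (hth : 0 < p.th s r) (ht : 0 ≤ tt) (he : 0 ≤ e)
    (hcP : 0 ≤ cP) (hc : H305.Cls K x s r P U g u v) (hU : BUn n tt F1)
    (hB : BSl n e cP F1 Q1) (hK : K ≤ n) (T : ℤ) :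
    Fam0 K (cx K x).2.2 (cx K x).2.1 (iv K T) (fun x0 k n m => qA p U K Q1 k (ix k x0) n m)
      (hA p s r U K g F1 Q1) (cP + 2) (gH p s tt e cP (p.th s r) K) (gD p s e cP K) := by
  unfold hA
  rw [mA_eq hc]
  exact (fam_hi hth ht he (mW_nonneg hΛ hs) ((slG_of hB hU).mono hK).sw
    (sqD_A (Y := x.2.1) (Z := x.2.2) hΛ (haA hc) hc.U_g2) (rootP_A hB hK _ _)
    (pthK_A hcP hB hK)).to0

/-- **The family `b`.** -/
theorem famB_full (hΛ : 0 ≤ p.Lm) (hs : 0 ≤ s) (hτ : 0 < τ) (ht : 0 ≤ tt) (he : 0 ≤ e)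
    (hcP : 0 ≤ cP) (hc : H305.Cls K x s r P U g u v) (hU : BUn n tt F3)
    (hB : BSl n e cP F3 Q3) (hK : K ≤ n) (T : ℤ) :
    FamK K (cx K x).1 (cx K x).2.1 (iv K T) (fun x0 k n m => qB p U K Q3 k (ix k x0) n m)
      (mb p U K u F3) (cP + 2) (gN p s tt e cP τ K) (gD p s e cP K) :=
  fam_full hτ ht he (mW_nonneg hΛ hs) ((slG_of hB hU).mono hK)
    (sqD_b (X := x.1) (Y := x.2.1) hΛ (hab hc) hc.U_u2) (rootP_b hB hK _ _)
    (pthK_b hcP hB hK (hab hc))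

/-- **The low part of `b`, first cut.** -/
theorem famB_lo (hΛ : 0 ≤ p.Lm) (hs : 0 ≤ s) (hτ : 0 < τ) (ht : 0 ≤ tt) (he : 0 ≤ e)
    (hcP : 0 ≤ cP) (hc : H305.Cls K x s r P U g u v) (hU : BUn n tt F3)
    (hB : BSl n e cP F3 Q3) (hK : K ≤ n) (T : ℤ) :
    FamK K (cx K x).1 (cx K x).2.1 (iv K T) (fun x0 k n m => qB p U K Q3 k (ix k x0) n m)
      (b1 p s r U K u F3 Q3) (cP + 2) (gN p s tt e cP τ K) (gD p s e cP K) :=
  fam_lo (c := p.th s r ^ 2) hτ ht he (mW_nonneg hΛ hs) ((slG_of hB hU).mono hK)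
    (sqD_b (X := x.1) (Y := x.2.1) hΛ (hab hc) hc.U_u2) (rootP_b hB hK _ _)
    (pthK_b hcP hB hK (hab hc))

/-- **The high part of `b`, first cut.** -/
theorem famB_hi (hΛ : 0 ≤ p.Lm) (hs : 0 ≤ s) (hth : 0 < p.th s r) (ht : 0 ≤ tt) (he : 0 ≤ e)
    (hcP : 0 ≤ cP) (hc : H305.Cls K x s r P U g u v) (hU : BUn n tt F3)
    (hB : BSl n e cP F3 Q3) (hK : K ≤ n) (T : ℤ) :
    FamK K (cx K x).1 (cx K x).2.1 (iv K T) (fun x0 k n m => qB p U K Q3 k (ix k x0) n m)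
      (hb1 p s r U K u F3 Q3) (cP + 2) (gH p s tt e cP (p.th s r) K) (gD p s e cP K) :=
  fam_hi hth ht he (mW_nonneg hΛ hs) ((slG_of hB hU).mono hK)
    (sqD_b (X := x.1) (Y := x.2.1) hΛ (hab hc) hc.U_u2) (rootP_b hB hK _ _)
    (pthK_b hcP hB hK (hab hc))

end fams

end

end Vale.Agent.P141.H205
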