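import Vale.Agent.P141.H205.HNum2

/-!
# P141, line (A): the numbers of the families as monomials

`gH_le`, `gN_le`, `gD_le` for `tt = Kt t ^ (1 - c)`.
-/

namespace Vale.Agent.P141.H205

open Finset Matrix
open Vale.Agent.P141.H401 (Num.Lm Num.th)

noncomputable section

theorem rp_nat {x : ℝ} (hx : 0 < x) (y : ℝ) (n : ℕ) : (x ^ y) ^ n = x ^ (y * n) :=
  (Real.rpow_mul_natCast hx.le y n).symm

/-- **the high own energies as a monomial** -/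
theorem bs_le {Kt e k3 c d t s r : ℝ} (_ : 0 ≤ Kt) (he : 0 ≤ e) (hk3 : 0 ≤ k3) (hc : 0 ≤ c)
    (hd : 0 ≤ d) (ht : 0 < t) (ht1 : t ≤ 1) (hs : 0 < s) (hr : 1 ≤ r) :
    bs (Kt * t ^ (1 - c)) e (t ^ (1 - k3) * s ^ (1 / 4 : ℝ) * r ^ k3) (4 * (t ^ (-d) * s)) ≤
      (8 * ((24 * Kt) ^ 8 * 4 ^ 3 * e + (12 * Kt) ^ 4 * 4 ^ 2 * e)) *
        (t ^ (2 + (2 * k3 - 8 * c - 3 * d)) * s ^ (3 / 2 : ℝ) * r ^ (-(2 * k3))) := by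
  have hr0 : 0 < r := by linarith
  have e1 : (24 * (Kt * t ^ (1 - c))) ^ 8 * (4 * (t ^ (-d) * s)) ^ 3 * e /
      (t ^ (1 - k3) * s ^ (1 / 4 : ℝ) * r ^ k3) ^ 6 =
      ((24 * Kt) ^ 8 * 4 ^ 3 * e) * (t ^ (2 + 6 * k3 - 8 * c - 3 * d) * s ^ (3 / 2 : ℝ) *
        r ^ (-(6 * k3))) := by
    have k1 : t ^ (2 + 6 * k3 - 8 * c - 3 * d) =
        t ^ ((1 - c) * (8 : ℕ)) * t ^ (-d * (3 : ℕ)) / t ^ ((1 - k3) * (6 : ℕ)) := by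
      rw [← Real.rpow_add ht, ← Real.rpow_sub ht]
      congr 1
      push_cast
      ring
    have k2 : s ^ (3 / 2 : ℝ) = s ^ 3 / s ^ ((1 / 4 : ℝ) * (6 : ℕ)) := by
      rw [← Real.rpow_natCast s 3, ← Real.rpow_sub hs]
      congr 1
      push_cast
      norm_num
    have k3' : r ^ (-(6 * k3)) = 1 / r ^ (k3 * (6 : ℕ)) := by
      rw [Real.rpow_neg hr0.le, one_div]
      congr 2
      push_cast
      ring
    rw [k1, k2, k3', ← rp_nat ht, ← rp_nat ht, ← rp_nat ht, ← rp_nat hs, ← rp_nat hr0]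
    have p1 : 0 < t ^ (1 - k3) := Real.rpow_pos_of_pos ht _
    have p2 : 0 < s ^ (1 / 4 : ℝ) := Real.rpow_pos_of_pos hs _
    have p3 : 0 < r ^ k3 := Real.rpow_pos_of_pos hr0 _
    field_simp
  have e2 : (12 * (Kt * t ^ (1 - c))) ^ 4 * (4 * (t ^ (-d) * s)) ^ 2 * e /
      (t ^ (1 - k3) * s ^ (1 / 4 : ℝ) * r ^ k3) ^ 2 =
      ((12 * Kt) ^ 4 * 4 ^ 2 * e) * (t ^ (2 + 2 * k3 - 4 * c - 2 * d) * s ^ (3 / 2 : ℝ) *
        r ^ (-(2 * k3))) := by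
    have k1 : t ^ (2 + 2 * k3 - 4 * c - 2 * d) =
        t ^ ((1 - c) * (4 : ℕ)) * t ^ (-d * (2 : ℕ)) / t ^ ((1 - k3) * (2 : ℕ)) := by
      rw [← Real.rpow_add ht, ← Real.rpow_sub ht]
      congr 1
      push_cast
      ring
    have k2 : s ^ (3 / 2 : ℝ) = s ^ 2 / s ^ ((1 / 4 : ℝ) * (2 : ℕ)) := by
      rw [← Real.rpow_natCast s 2, ← Real.rpow_sub hs]
      congr 1
      push_cast
      norm_num
    have k3' : r ^ (-(2 * k3)) = 1 / r ^ (k3 * (2 : ℕ)) := by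
      rw [Real.rpow_neg hr0.le, one_div]
      congr 2
      push_cast
      ring
    rw [k1, k2, k3', ← rp_nat ht, ← rp_nat ht, ← rp_nat ht, ← rp_nat hs, ← rp_nat hr0]
    have p1 : 0 < t ^ (1 - k3) := Real.rpow_pos_of_pos ht _
    have p2 : 0 < s ^ (1 / 4 : ℝ) := Real.rpow_pos_of_pos hs _
    have p3 : 0 < r ^ k3 := Real.rpow_pos_of_pos hr0 _
    field_simp
  unfold bs
  rw [e1, e2]
  have m1 : t ^ (2 + 6 * k3 - 8 * c - 3 * d) ≤ t ^ (2 + (2 * k3 - 8 * c - 3 * d)) :=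
    Real.rpow_le_rpow_of_exponent_ge ht ht1 (by linarith)
  have m2 : t ^ (2 + 2 * k3 - 4 * c - 2 * d) ≤ t ^ (2 + (2 * k3 - 8 * c - 3 * d)) :=
    Real.rpow_le_rpow_of_exponent_ge ht ht1 (by linarith)
  have m3 : r ^ (-(6 * k3)) ≤ r ^ (-(2 * k3)) :=
    Real.rpow_le_rpow_of_exponent_le hr (by linarith)
  have p0 : 0 < s ^ (3 / 2 : ℝ) := Real.rpow_pos_of_pos hs _
  have p1 : 0 < t ^ (2 + 6 * k3 - 8 * c - 3 * d) := Real.rpow_pos_of_pos ht _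
  have p2 : 0 < r ^ (-(6 * k3)) := Real.rpow_pos_of_pos hr0 _
  have p3 : 0 < r ^ (-(2 * k3)) := Real.rpow_pos_of_pos hr0 _
  have g1 : t ^ (2 + 6 * k3 - 8 * c - 3 * d) * s ^ (3 / 2 : ℝ) * r ^ (-(6 * k3)) ≤
      t ^ (2 + (2 * k3 - 8 * c - 3 * d)) * s ^ (3 / 2 : ℝ) * r ^ (-(2 * k3)) := by gcongr
  have g2 : t ^ (2 + 2 * k3 - 4 * c - 2 * d) * s ^ (3 / 2 : ℝ) * r ^ (-(2 * k3)) ≤
      t ^ (2 + (2 * k3 - 8 * c - 3 * d)) * s ^ (3 / 2 : ℝ) * r ^ (-(2 * k3)) := by gcongr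
  have q1 : 0 ≤ (24 * Kt) ^ 8 * 4 ^ 3 * e := by positivity
  have q2 : 0 ≤ (12 * Kt) ^ 4 * 4 ^ 2 * e := by positivity
  nlinarith [mul_le_mul_of_nonneg_left g1 q1, mul_le_mul_of_nonneg_left g2 q2]

/-- the constant of the high own energies -/
def cH (Kt e cP : ℝ) : ℝ := (cP + 2) * (8 * ((24 * Kt) ^ 8 * 4 ^ 3 * e + (12 * Kt) ^ 4 * 4 ^ 2 * e))

/-- the constant of the natural own energies -/
def cN (Kt e cP : ℝ) : ℝ := (cP + 2) * (4 * e) + cH Kt e cP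

variable {p : H401.Num} {s r : ℝ}

/-- **the high parts** -/
theorem gH_le (hKt : 0 ≤ p.Kt) (he : 0 ≤ p.e) (hcP : 0 ≤ p.cP) (hk3 : 0 ≤ p.k3) (hc : 0 ≤ p.c)
    (hd : 0 ≤ p.d) (ht : 0 < p.t) (ht1 : p.t ≤ 1) (hs : 0 < s) (hr : 1 ≤ r) (K : ℕ) :
    gH p s (p.Kt * p.t ^ (1 - p.c)) p.e p.cP (p.th s r) K ≤
      cH p.Kt p.e p.cP * (p.t ^ (2 + (2 * p.k3 - 8 * p.c - 3 * p.d)) * s ^ (3 / 2 : ℝ) *
        r ^ (-(2 * p.k3)) * 8 ^ K) := by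
  have h := bs_le hKt he hk3 hc hd ht ht1 hs hr
  unfold gH mW cH H401.Num.th H401.Num.Lm
  have h8 : (0 : ℝ) < 8 ^ K := by positivity
  calc _ ≤ (p.cP + 2) * ((8 * ((24 * p.Kt) ^ 8 * 4 ^ 3 * p.e + (12 * p.Kt) ^ 4 * 4 ^ 2 * p.e)) *
        (p.t ^ (2 + (2 * p.k3 - 8 * p.c - 3 * p.d)) * s ^ (3 / 2 : ℝ) * r ^ (-(2 * p.k3)))) *
        8 ^ K := by gcongr
    _ = _ := by ring

/-- **the natural own energies**, cut at `t s ^ (1 / 4)` -/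
theorem gN_le (hKt : 0 ≤ p.Kt) (he : 0 ≤ p.e) (hcP : 0 ≤ p.cP) (hc : 0 ≤ p.c)
    (hd : 0 ≤ p.d) (ht : 0 < p.t) (ht1 : p.t ≤ 1) (hs : 0 < s) (K : ℕ) :
    gN p s (p.Kt * p.t ^ (1 - p.c)) p.e p.cP (p.t * s ^ (1 / 4 : ℝ)) K ≤
      cN p.Kt p.e p.cP * (p.t ^ (2 + -(8 * p.c + 3 * p.d)) * s ^ (3 / 2 : ℝ) *
        r ^ (-(0 : ℝ)) * 8 ^ K) := by
  have h := bs_le (k3 := 0) (r := 1) hKt he le_rfl hc hd ht ht1 hs le_rfl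
  have e0 : p.t ^ (1 - (0 : ℝ)) * s ^ (1 / 4 : ℝ) * (1 : ℝ) ^ (0 : ℝ) = p.t * s ^ (1 / 4 : ℝ) := by
    rw [Real.one_rpow, mul_one, sub_zero, Real.rpow_one]
  have e1 : (2 : ℝ) + (2 * 0 - 8 * p.c - 3 * p.d) = 2 + -(8 * p.c + 3 * p.d) := by ring
  rw [e0, e1, mul_zero, neg_zero, Real.rpow_zero, mul_one] at h
  have h8 : (0 : ℝ) < 8 ^ K := by positivity
  have e2 : (p.t * s ^ (1 / 4 : ℝ)) ^ 2 * (p.e * (4 * (p.t ^ (-p.d) * s))) =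
      4 * p.e * (p.t ^ (2 - p.d) * s ^ (3 / 2 : ℝ)) := by
    have k1 : p.t ^ (2 - p.d) = p.t ^ 2 * p.t ^ (-p.d) := by
      rw [← Real.rpow_natCast p.t 2, ← Real.rpow_add ht]
      congr 1
    have k2 : s ^ (3 / 2 : ℝ) = (s ^ (1 / 4 : ℝ)) ^ 2 * s := by
      rw [rp_nat hs]
      conv_rhs => rw [← Real.rpow_one s, ← Real.rpow_mul hs.le, ← Real.rpow_add hs]
      congr 1
      push_cast
      norm_num
    rw [k1, k2]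
    ring
  have m1 : p.t ^ (2 - p.d) ≤ p.t ^ (2 + -(8 * p.c + 3 * p.d)) :=
    Real.rpow_le_rpow_of_exponent_ge ht ht1 (by linarith)
  have p0 : 0 < s ^ (3 / 2 : ℝ) := Real.rpow_pos_of_pos hs _
  unfold gN mW cN cH H401.Num.Lm
  rw [e2, neg_zero, Real.rpow_zero, mul_one]
  calc _ ≤ (p.cP + 2) * (4 * p.e * (p.t ^ (2 + -(8 * p.c + 3 * p.d)) * s ^ (3 / 2 : ℝ)) +
        (8 * ((24 * p.Kt) ^ 8 * 4 ^ 3 * p.e + (12 * p.Kt) ^ 4 * 4 ^ 2 * p.e)) *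
        (p.t ^ (2 + -(8 * p.c + 3 * p.d)) * s ^ (3 / 2 : ℝ))) * 8 ^ K := by gcongr
    _ = _ := by ring

/-- **the square energies** -/
theorem gD_le (K : ℕ) :
    gD p s p.e p.cP K = ((p.cP + 2) * (4 * p.e)) * (p.t ^ (-p.d) * s * 8 ^ K) := by
  unfold gD mW H401.Num.Lm
  ring

theorem cH_pos {Kt e cP : ℝ} (hKt : 0 < Kt) (he : 0 < e) (hcP : 0 ≤ cP) : 0 < cH Kt e cP := by
  unfold cH
  positivity

theorem cN_pos {Kt e cP : ℝ} (hKt : 0 < Kt) (he : 0 < e) (hcP : 0 ≤ cP) : 0 < cN Kt e cP := by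
  unfold cN cH
  positivity

end

end Vale.Agent.P141.H205
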