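import Vale.Agent.P141.H103.MidK
import Vale.Agent.P141.H834.Svd

/-!
# Static spectral cut of a labelled path at its affected squares: one square

`lowP h c` is the spectral projection of a symmetric matrix on the eigenvalues at most `c`.
`cutv` applies a matrix on the middle side of a labelled block.
-/

namespace Vale.Agent.P141.H205

open Finset Matrix Vale.Agent.P141.PL Vale.Agent.P141.H103
open Vale.Agent.P075 (Ix val)

noncomputable section

section mat

variable {n : Type*} [Fintype n] [DecidableEq n]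

/-- spectral projection on the eigenvalues at most `c` -/
def lowP {X : Matrix n n ℝ} (h : X.IsHermitian) (c : ℝ) : Matrix n n ℝ := fun j j' =>
  ∑ i, if h.eigenvalues i ≤ c then h.eigenvectorBasis i j * h.eigenvectorBasis i j' else 0

variable {X : Matrix n n ℝ}

/-- functions of the eigenvalues -/
def spf (h : X.IsHermitian) (f : ℝ → ℝ) : Matrix n n ℝ := fun j j' =>
  ∑ i, f (h.eigenvalues i) * (h.eigenvectorBasis i j * h.eigenvectorBasis i j')

theorem spf_mul (h : X.IsHermitian) (f g : ℝ → ℝ) :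
    spf h f * spf h g = spf h (fun s => f s * g s) := by
  ext a b
  rw [Matrix.mul_apply]
  unfold spf
  simp only [Finset.sum_mul_sum]
  rw [sum_comm]
  refine sum_congr rfl fun i _ => ?_
  rw [sum_comm]
  have e : ∀ j, ∑ c, f (h.eigenvalues i) * (h.eigenvectorBasis i a * h.eigenvectorBasis i c) *
      (g (h.eigenvalues j) * (h.eigenvectorBasis j c * h.eigenvectorBasis j b)) =
      f (h.eigenvalues i) * g (h.eigenvalues j) *
        (h.eigenvectorBasis i a * h.eigenvectorBasis j b) * (if i = j then 1 else 0) := by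
    intro j
    rw [← H834.eig_orth h i j, mul_sum]
    exact sum_congr rfl fun c _ => by ring
  rw [sum_congr rfl fun j _ => e j]
  simp

theorem spf_id (h : X.IsHermitian) : spf h (fun s => s) = X := by
  ext a b
  unfold spf
  have e1 : ∑ i, h.eigenvalues i * (h.eigenvectorBasis i a * h.eigenvectorBasis i b) =
      ∑ d, X a d * ∑ i, h.eigenvectorBasis i d * h.eigenvectorBasis i b := by
    have : ∀ i, h.eigenvalues i * (h.eigenvectorBasis i a * h.eigenvectorBasis i b) =
        ∑ d, X a d * (h.eigenvectorBasis i d * h.eigenvectorBasis i b) := by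
      intro i
      rw [← mul_assoc, ← H834.eig_eq h, sum_mul]
      exact sum_congr rfl fun d _ => by ring
    simp only [this]
    rw [sum_comm]
    refine sum_congr rfl fun d _ => ?_
    rw [mul_sum]
  rw [e1]
  simp only [H834.eig_compl h]
  simp

theorem spf_one (h : X.IsHermitian) : spf h (fun _ => 1) = 1 := by
  ext a b
  unfold spf
  simp only [one_mul]
  rw [H834.eig_compl h, Matrix.one_apply]

theorem spf_transpose (h : X.IsHermitian) (f : ℝ → ℝ) : (spf h f)ᵀ = spf h f := by
  ext a b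
  rw [transpose_apply]
  unfold spf
  exact sum_congr rfl fun i _ => by ring

theorem spf_sub (h : X.IsHermitian) (f g : ℝ → ℝ) :
    spf h f - spf h g = spf h (fun s => f s - g s) := by
  ext a b
  rw [Matrix.sub_apply]
  unfold spf
  rw [← sum_sub_distrib]
  exact sum_congr rfl fun i _ => by ring

theorem spf_trace (h : X.IsHermitian) (f : ℝ → ℝ) : (spf h f).trace = ∑ i, f (h.eigenvalues i) := by
  unfold Matrix.trace Matrix.diag spf
  rw [sum_comm]
  refine sum_congr rfl fun i _ => ?_
  rw [← mul_sum]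
  have := H834.eig_orth h i i
  rw [if_pos rfl] at this
  rw [this, mul_one]

/-- quadratic form of a function of the eigenvalues -/
theorem spf_form (h : X.IsHermitian) (f : ℝ → ℝ) (w : n → ℝ) :
    w ⬝ᵥ spf h f *ᵥ w = ∑ i, f (h.eigenvalues i) * (∑ j, h.eigenvectorBasis i j * w j) ^ 2 := by
  have e : ∀ i, (∑ j, h.eigenvectorBasis i j * w j) ^ 2 =
      ∑ j, ∑ j', (h.eigenvectorBasis i j * w j) * (h.eigenvectorBasis i j' * w j') := by
    intro i
    rw [sq, Finset.sum_mul_sum]
  simp only [e]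
  simp only [dotProduct, mulVec, spf, sum_mul, mul_sum]
  rw [sum_comm' (s := univ) (t := fun _ => univ) (t' := univ) (s' := fun _ => univ) (by simp)]
  rw [sum_comm]
  have : ∀ x y : n, ∑ x_1 : n, w x * (f (h.eigenvalues x_1) *
      (h.eigenvectorBasis x_1 x * h.eigenvectorBasis x_1 y) * w y) =
      ∑ x_1 : n, f (h.eigenvalues x_1) * ((h.eigenvectorBasis x_1 x * w x) *
        (h.eigenvectorBasis x_1 y * w y)) :=
    fun x y => sum_congr rfl fun i _ => by ring
  simp only [this]
  calc ∑ x, ∑ y, ∑ i, f (h.eigenvalues i) * ((h.eigenvectorBasis i x * w x) *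
        (h.eigenvectorBasis i y * w y))
      = ∑ x, ∑ i, ∑ y, f (h.eigenvalues i) * ((h.eigenvectorBasis i x * w x) *
        (h.eigenvectorBasis i y * w y)) := sum_congr rfl fun x _ => sum_comm
    _ = _ := sum_comm

theorem spf_form_le (h : X.IsHermitian) {f g : ℝ → ℝ}
    (hfg : ∀ i, f (h.eigenvalues i) ≤ g (h.eigenvalues i)) (w : n → ℝ) :
    w ⬝ᵥ spf h f *ᵥ w ≤ w ⬝ᵥ spf h g *ᵥ w := by
  rw [spf_form, spf_form]
  exact sum_le_sum fun i _ => mul_le_mul_of_nonneg_right (hfg i) (sq_nonneg _)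

theorem lowP_eq (h : X.IsHermitian) (c : ℝ) :
    lowP h c = spf h (fun s => if s ≤ c then 1 else 0) := by
  ext a b
  unfold lowP spf
  refine sum_congr rfl fun i _ => ?_
  show _ = (if h.eigenvalues i ≤ c then (1 : ℝ) else 0) * _
  split_ifs <;> ring

/-- the complementary projection -/
theorem highP_eq (h : X.IsHermitian) (c : ℝ) :
    1 - lowP h c = spf h (fun s => if s ≤ c then 0 else 1) := by
  rw [lowP_eq, ← spf_one h, spf_sub]
  congr 1
  funext s
  split_ifs <;> ring

theorem lowP_transpose (h : X.IsHermitian) (c : ℝ) : (lowP h c)ᵀ = lowP h c := by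
  rw [lowP_eq, spf_transpose]

theorem highP_transpose (h : X.IsHermitian) (c : ℝ) : (1 - lowP h c)ᵀ = 1 - lowP h c := by
  rw [highP_eq, spf_transpose]

theorem lowP_idem (h : X.IsHermitian) (c : ℝ) : lowP h c * lowP h c = lowP h c := by
  rw [lowP_eq, spf_mul]
  congr 1
  funext s
  split_ifs <;> ring

theorem highP_idem (h : X.IsHermitian) (c : ℝ) :
    (1 - lowP h c) * (1 - lowP h c) = 1 - lowP h c := by
  rw [highP_eq, spf_mul]
  congr 1
  funext s
  split_ifs <;> ring

theorem lowP_comm (h : X.IsHermitian) (c : ℝ) : lowP h c * X = X * lowP h c := by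
  have e : lowP h c * spf h (fun s => s) = spf h (fun s => s) * lowP h c := by
    rw [lowP_eq, spf_mul, spf_mul]
    congr 1
    funext s
    ring
  rwa [spf_id] at e

/-- the cut matrix as a function of the eigenvalues -/
theorem low_mul (h : X.IsHermitian) (c : ℝ) :
    lowP h c * X * lowP h c = spf h (fun s => if s ≤ c then s else 0) := by
  have e : lowP h c * X * lowP h c = lowP h c * spf h (fun s => s) * lowP h c := by
    rw [spf_id h]
  rw [e, lowP_eq, spf_mul, spf_mul]
  congr 1
  funext s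
  split_ifs <;> ring

theorem high_mul (h : X.IsHermitian) (c : ℝ) :
    (1 - lowP h c) * X * (1 - lowP h c) = spf h (fun s => if s ≤ c then 0 else s) := by
  have e : (1 - lowP h c) * X * (1 - lowP h c) =
      (1 - lowP h c) * spf h (fun s => s) * (1 - lowP h c) := by
    rw [spf_id h]
  rw [e, highP_eq, spf_mul, spf_mul]
  congr 1
  funext s
  split_ifs <;> ring

/-- **the cap of the low part** -/
theorem low_form (h : X.IsHermitian) {c : ℝ} (hc : 0 ≤ c) (w : n → ℝ) :
    w ⬝ᵥ (lowP h c * X * lowP h c) *ᵥ w ≤ c * (w ⬝ᵥ w) := by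
  rw [low_mul]
  refine (spf_form_le h (g := fun _ => c) (fun i => ?_) w).trans (le_of_eq ?_)
  · show (if h.eigenvalues i ≤ c then h.eigenvalues i else 0) ≤ c
    split_ifs with hi
    · exact hi
    · exact hc
  · have e : spf h (fun _ => c) = c • (1 : Matrix n n ℝ) := by
      rw [← spf_one h]
      ext a b
      rw [Matrix.smul_apply, smul_eq_mul]
      unfold spf
      rw [mul_sum]
      exact sum_congr rfl fun i _ => by ring
    rw [e, smul_mulVec, one_mulVec, dotProduct_smul, smul_eq_mul]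

/-- the high part is large on its range -/
theorem high_form (h : X.IsHermitian) (c : ℝ) (w : n → ℝ) :
    c * (w ⬝ᵥ (1 - lowP h c) *ᵥ w) ≤ w ⬝ᵥ ((1 - lowP h c) * X * (1 - lowP h c)) *ᵥ w := by
  rw [high_mul, highP_eq, spf_form, spf_form, mul_sum]
  refine sum_le_sum fun i _ => ?_
  have h0 := sq_nonneg (∑ j, h.eigenvectorBasis i j * w j)
  split_ifs with hi
  · simp
  · rw [one_mul]
    exact mul_le_mul_of_nonneg_right (not_le.1 hi).le h0

/-- **the own energies split** -/
theorem trace_low_high (h : X.IsHermitian) (c : ℝ) :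
    (lowP h c * X * lowP h c * (lowP h c * X * lowP h c)).trace +
      ((1 - lowP h c) * X * (1 - lowP h c) * ((1 - lowP h c) * X * (1 - lowP h c))).trace =
      (X * X).trace := by
  have e : X * X = spf h (fun s => s * s) := by
    rw [← spf_mul, spf_id h]
  rw [low_mul, high_mul, e, spf_mul, spf_mul, spf_trace, spf_trace, spf_trace,
    ← sum_add_distrib]
  exact sum_congr rfl fun i _ => by split_ifs <;> ring

theorem trace_high (h : X.IsHermitian) (c : ℝ) :
    ((1 - lowP h c) * X * (1 - lowP h c) * ((1 - lowP h c) * X * (1 - lowP h c))).trace =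
      ∑ i, if h.eigenvalues i ≤ c then 0 else h.eigenvalues i ^ 2 := by
  rw [high_mul, spf_mul, spf_trace]
  exact sum_congr rfl fun i _ => by split_ifs <;> ring

/-- the energies split -/
theorem trace_low_high_one (h : X.IsHermitian) (c : ℝ) :
    (lowP h c * X * lowP h c).trace + ((1 - lowP h c) * X * (1 - lowP h c)).trace = X.trace := by
  have e : X.trace = (spf h (fun s => s)).trace := by rw [spf_id h]
  rw [low_mul, high_mul, e, spf_trace, spf_trace, spf_trace, ← sum_add_distrib]
  exact sum_congr rfl fun i _ => by split_ifs <;> ring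

/-- the cut of a positive matrix is below the matrix -/
theorem low_le (h : X.PosSemidef) (c : ℝ) (w : n → ℝ) :
    w ⬝ᵥ (lowP h.1 c * X * lowP h.1 c) *ᵥ w ≤ w ⬝ᵥ X *ᵥ w := by
  have e : w ⬝ᵥ X *ᵥ w = w ⬝ᵥ spf h.1 (fun s => s) *ᵥ w := by rw [spf_id h.1]
  rw [low_mul, e]
  refine spf_form_le h.1 (fun i => ?_) w
  have := h.eigenvalues_nonneg i
  split_ifs
  · exact le_rfl
  · exact this

theorem high_le (h : X.PosSemidef) (c : ℝ) (w : n → ℝ) :
    w ⬝ᵥ ((1 - lowP h.1 c) * X * (1 - lowP h.1 c)) *ᵥ w ≤ w ⬝ᵥ X *ᵥ w := by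
  have e : w ⬝ᵥ X *ᵥ w = w ⬝ᵥ spf h.1 (fun s => s) *ᵥ w := by rw [spf_id h.1]
  rw [high_mul, e]
  refine spf_form_le h.1 (fun i => ?_) w
  have := h.eigenvalues_nonneg i
  split_ifs
  · exact this
  · exact le_rfl

/-! ### Contraction by a symmetric projection -/

omit [DecidableEq n] in
theorem trace_sq_nonneg (M : Matrix n n ℝ) : 0 ≤ (Mᵀ * M).trace := by
  unfold Matrix.trace Matrix.diag
  refine sum_nonneg fun i _ => ?_
  rw [Matrix.mul_apply]
  exact sum_nonneg fun j _ => by rw [transpose_apply]; exact mul_self_nonneg _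

theorem tr_proj_le {P : Matrix n n ℝ} (ht : Pᵀ = P) (hi : P * P = P) (M : Matrix n n ℝ) :
    ((P * M)ᵀ * (P * M)).trace ≤ (Mᵀ * M).trace := by
  have h1 : (P * M)ᵀ * (P * M) = Mᵀ * (P * M) := by
    rw [transpose_mul, ht, Matrix.mul_assoc, ← Matrix.mul_assoc P P M, hi]
  have h2 : ((1 - P) * M)ᵀ * ((1 - P) * M) = Mᵀ * M - Mᵀ * (P * M) := by
    rw [transpose_mul, transpose_sub, transpose_one, ht, Matrix.mul_assoc,
      ← Matrix.mul_assoc (1 - P) (1 - P) M]
    have h3 : (1 - P) * (1 - P) = 1 - P := by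
      rw [Matrix.sub_mul, Matrix.mul_sub, Matrix.mul_sub, hi, Matrix.one_mul, Matrix.mul_one,
        Matrix.one_mul, sub_self, sub_zero]
    rw [h3, Matrix.sub_mul, Matrix.one_mul, Matrix.mul_sub]
  have h4 := trace_sq_nonneg ((1 - P) * M)
  rw [h2, trace_sub] at h4
  rw [h1]
  linarith

/-- **a projection does not increase the own energy** -/
theorem tr_cut_le {P Q : Matrix n n ℝ} (ht : Pᵀ = P) (hi : P * P = P) (hQ : Qᵀ = Q) :
    (P * Q * P * (P * Q * P)).trace ≤ (Q * Q).trace := by
  have h1 := tr_proj_le ht hi (Q * P)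
  have h2 := tr_proj_le ht hi Q
  have e1 : P * Q * P * (P * Q * P) = (P * (Q * P))ᵀ * (P * (Q * P)) := by
    rw [transpose_mul, transpose_mul, ht, hQ]
    simp only [Matrix.mul_assoc]
  have e2 : ((Q * P)ᵀ * (Q * P)).trace = ((P * Q)ᵀ * (P * Q)).trace := by
    have f1 : ((Q * P)ᵀ * (Q * P)).trace = (P * Q * Q).trace := by
      rw [transpose_mul, ht, hQ, ← Matrix.mul_assoc, trace_mul_comm, ← Matrix.mul_assoc,
        ← Matrix.mul_assoc, hi]
    have f2 : ((P * Q)ᵀ * (P * Q)).trace = (P * Q * Q).trace := by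
      rw [transpose_mul, ht, hQ, Matrix.mul_assoc, ← Matrix.mul_assoc P P Q, hi,
        trace_mul_comm]
    rw [f1, f2]
  rw [e1]
  refine h1.trans ?_
  rw [e2]
  refine h2.trans (le_of_eq ?_)
  rw [hQ]

end mat

/-! ### Cut of a block -/

theorem val_inj : ∀ (k : ℕ) (i j : Ix k), val k i = val k j → i = j
  | 0, _, _, _ => rfl
  | k + 1, Sum.inl i, Sum.inl j, h => congrArg Sum.inl (val_inj k i j h)
  | k + 1, Sum.inl i, Sum.inr j, h => by
      have h1 := Vale.Agent.P075.val_lt k i
      change val k i = 2 ^ k + val k j at h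
      omega
  | k + 1, Sum.inr i, Sum.inl j, h => by
      have h1 := Vale.Agent.P075.val_lt k j
      change 2 ^ k + val k i = val k j at h
      omega
  | k + 1, Sum.inr i, Sum.inr j, h => by
      change 2 ^ k + val k i = 2 ^ k + val k j at h
      exact congrArg Sum.inr (val_inj k i j (by omega))

section cut

variable {κ : Type*} [Fintype κ]

/-- the matrix `P` on the middle cell `(k, m)` applied to a row -/
def cutv (k : ℕ) (P : Matrix (Ix k) (Ix k) ℝ) (m : ℤ) (f : ℤ → κ → ℝ) (y : ℤ) (l : κ) : ℝ :=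
  ∑ j', if 2 ^ k * m + (val k j' : ℤ) = y then ∑ j, f (2 ^ k * m + val k j) l * P j j' else 0

omit [Fintype κ] in
theorem cutv_val (k : ℕ) (P : Matrix (Ix k) (Ix k) ℝ) (m : ℤ) (f : ℤ → κ → ℝ) (j0 : Ix k) (l : κ) :
    cutv k P m f (2 ^ k * m + val k j0) l = ∑ j, f (2 ^ k * m + val k j) l * P j j0 := by
  unfold cutv
  rw [sum_eq_single j0]
  · rw [if_pos rfl]
  · intro j' _ hj'
    rw [if_neg]
    intro h
    apply hj'
    apply val_inj
    have : ((val k j' : ℕ) : ℤ) = (val k j0 : ℕ) := by linarith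
    exact_mod_cast this
  · intro h
    exact absurd (mem_univ _) h

/-- **Gram matrix of the cut block** -/
theorem QW_cut (a k : ℕ) (P : Matrix (Ix k) (Ix k) ℝ) (b : ℤ → ℤ → κ → ℝ)
    (M : ℤ → Matrix κ κ ℝ) (n m : ℤ) :
    QW a k (fun x y => cutv k P m (b x) y) M n m = Pᵀ * QW a k b M n m * P := by
  ext j j'
  rw [Matrix.mul_apply]
  have h1 : ∀ i', (Pᵀ * QW a k b M n m) j i' = ∑ i, P i j * (((2 : ℝ) ^ a * 2 ^ k)⁻¹ *
      ∑ x ∈ iv a n, b x (2 ^ k * m + val k i) ⬝ᵥ M x *ᵥ b x (2 ^ k * m + val k i')) := by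
    intro i'
    rw [Matrix.mul_apply]
    rfl
  rw [sum_congr rfl fun i' _ => by rw [h1 i']]
  have h2 : ∀ (x : ℤ) (j : Ix k), (fun l => cutv k P m (b x) (2 ^ k * m + val k j) l) =
      ∑ i, P i j • b x (2 ^ k * m + val k i) := by
    intro x j
    funext l
    rw [cutv_val, Finset.sum_apply]
    exact sum_congr rfl fun i _ => by rw [Pi.smul_apply, smul_eq_mul, mul_comm]
  have h3 : QW a k (fun x y => cutv k P m (b x) y) M n m j j' = ((2 : ℝ) ^ a * 2 ^ k)⁻¹ *
      ∑ x ∈ iv a n, (fun l => cutv k P m (b x) (2 ^ k * m + val k j) l) ⬝ᵥ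
        M x *ᵥ (fun l => cutv k P m (b x) (2 ^ k * m + val k j') l) := rfl
  rw [h3]
  simp only [h2]
  have h4 : ∀ x, (∑ i, P i j • b x (2 ^ k * m + val k i)) ⬝ᵥ
      M x *ᵥ (∑ i', P i' j' • b x (2 ^ k * m + val k i')) =
      ∑ i', ∑ i, P i j * P i' j' *
        (b x (2 ^ k * m + val k i) ⬝ᵥ M x *ᵥ b x (2 ^ k * m + val k i')) := by
    intro x
    rw [mulVec_sum, dotProduct_sum]
    refine sum_congr rfl fun i' _ => ?_
    rw [sum_dotProduct]
    refine sum_congr rfl fun i _ => ?_
    rw [mulVec_smul, dotProduct_smul, smul_dotProduct, smul_eq_mul, smul_eq_mul]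
    ring
  simp only [h4]
  rw [sum_comm, mul_sum]
  refine sum_congr rfl fun i' _ => ?_
  rw [sum_comm, mul_sum, sum_mul]
  refine sum_congr rfl fun i _ => ?_
  rw [← mul_sum]
  ring

end cut

end

end Vale.Agent.P141.H205
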